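import Mathlib

/-!
A cost calculus for linear circuits.
-/

namespace Vale.Agent.P344

open Set Finset

variable {V : Type} [AddCommGroup V] [Module ℂ V]

/-- one gate -/
def Gt (S : Set V) (g : V) : Prop :=
  ∃ u ∈ S, ∃ v ∈ S, g = u + v ∨ g = u - v ∨ ∃ c : ℂ, g = c • u

/-- reachability with a bounded number of gates -/
inductive R : ℕ → Set V → Set V → Prop
  | base (c : ℕ) (S T : Set V) : T ⊆ S → R c S T
  | step (c : ℕ) (S T : Set V) (g : V) : Gt S g → R c (insert g S) T → R (c + 1) S T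

theorem Gt.mono {S S' : Set V} {g : V} (h : Gt S g) (hS : S ⊆ S') : Gt S' g := by
  obtain ⟨u, hu, v, hv, h⟩ := h
  exact ⟨u, hS hu, v, hS hv, h⟩

theorem R.mono {c : ℕ} {S T : Set V} (h : R c S T) : ∀ {S' T' : Set V}, S ⊆ S' → T' ⊆ S' ∪ T →
    R c S' T' := by
  induction h with
  | base c S T h => exact fun h1 h2 => .base _ _ _ (h2.trans (union_subset le_rfl (h.trans h1)))
  | step c S T g h _ ih =>
    exact fun h1 h2 => .step _ _ _ g (h.mono h1) (ih (insert_subset_insert h1)
      (h2.trans (union_subset_union_left _ (subset_insert _ _))))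

theorem R.add {c : ℕ} {S T : Set V} (h : R c S T) (a : ℕ) : R (a + c) S T := by
  induction h with
  | base c S T h => exact .base _ _ _ h
  | step c S T g h _ ih => exact .step _ _ _ g h ih

theorem R.trans {a b : ℕ} {S T U : Set V} (h : R a S T) (h' : R b (S ∪ T) U) : R (b + a) S U := by
  induction h with
  | base c S T h => rw [add_comm]; exact (h'.mono (union_subset le_rfl h) subset_union_right).add c
  | step c S T g h _ ih =>
    exact .step _ _ _ g h (ih (h'.mono (union_subset_union_left _ (subset_insert _ _))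
      subset_union_right))

/-- real valued version, with the constant zero always available -/
def Rc (c : ℝ) (S T : Set V) : Prop := ∃ n : ℕ, (n : ℝ) ≤ c ∧ R n (insert 0 S) T

variable {a b : ℝ} {S T U : Set V}

theorem Rc.sub (h : T ⊆ insert 0 S) : Rc 0 S T := ⟨0, by simp, .base _ _ _ h⟩

theorem Rc.le (h : Rc a S T) (hab : a ≤ b) : Rc b S T := ⟨_, h.choose_spec.1.trans hab, h.choose_spec.2⟩

theorem Rc.mono (h : Rc a S T) {S' T' : Set V} (h1 : S ⊆ insert 0 S') (h2 : T' ⊆ S' ∪ T) :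
    Rc a S' T' := by
  obtain ⟨n, hn, h⟩ := h
  exact ⟨n, hn, h.mono (insert_subset (mem_insert _ _) h1)
    (h2.trans (union_subset_union_left _ (subset_insert _ _)))⟩

theorem Rc.trans (h : Rc a S T) (h' : Rc b (S ∪ T) U) : Rc (a + b) S U := by
  obtain ⟨n, hn, h⟩ := h
  obtain ⟨m, hm, h'⟩ := h'
  exact ⟨m + n, by push_cast; linarith, h.trans (by rwa [insert_union])⟩

theorem Rc.biUnion {ι : Type} (s : Finset ι) {c : ι → ℝ} {T : ι → Set V}
    (h : ∀ i ∈ s, Rc (c i) S (T i)) : Rc (∑ i ∈ s, c i) S (⋃ i ∈ s, T i) := by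
  classical
  induction s using Finset.induction_on with
  | empty => simpa using Rc.sub (by simp)
  | insert i s hi ih =>
    rw [sum_insert hi, set_biUnion_insert]
    exact (h i (mem_insert_self _ _)).trans ((ih fun j hj => h j (mem_insert_of_mem hj)).mono
      (subset_union_left.trans (subset_insert _ _))
      (union_subset_union_left _ subset_union_right))

theorem Rc.iUnion {ι : Type} [Fintype ι] {T : ι → Set V} (h : ∀ i, Rc a S (T i)) :
    Rc (Fintype.card ι * a) S (⋃ i, T i) := by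
  simpa using Rc.biUnion univ (c := fun _ => a) fun i _ => h i

theorem Rc.fam {ι : Type} [Fintype ι] {f : ι → V} (h : ∀ i, Rc a S {f i}) :
    Rc (Fintype.card ι * a) S (range f) := by
  simpa only [iUnion_singleton_eq_range] using Rc.iUnion h

theorem Rc.gate {g : V} (h : Gt (insert 0 S) g) : Rc 1 S {g} :=
  ⟨1, by simp, .step 0 _ _ g h (.base _ _ _ (by simp))⟩

theorem Rc.add {u v : V} (hu : u ∈ S) (hv : v ∈ S) : Rc 1 S {u + v} :=
  .gate ⟨u, .inr hu, v, .inr hv, .inl rfl⟩

theorem Rc.sub' {u v : V} (hu : u ∈ S) (hv : v ∈ S) : Rc 1 S {u - v} :=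
  .gate ⟨u, .inr hu, v, .inr hv, .inr (.inl rfl)⟩

theorem Rc.smul {u : V} (hu : u ∈ insert 0 S) (c : ℂ) : Rc 1 S {c • u} :=
  .gate ⟨u, hu, u, hu, .inr (.inr ⟨c, rfl⟩)⟩

theorem Rc.sum {ι : Type} (s : Finset ι) (α : ι → ℂ) {v : ι → V} (h : ∀ i ∈ s, v i ∈ S) :
    Rc (2 * s.card) S {∑ i ∈ s, α i • v i} := by
  classical
  induction s using Finset.induction_on with
  | empty => simpa using Rc.sub (by simp)
  | insert i s hi ih =>
    rw [sum_insert hi, card_insert_of_notMem hi]
    refine ((ih fun j hj => h j (mem_insert_of_mem hj)).trans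
      ((Rc.smul (.inr (.inl (h i (mem_insert_self _ _)))) (α i)).trans
        (Rc.add (.inr rfl) (.inl (.inr rfl))))).le (le_of_eq ?_)
    push_cast; ring

/-- all entries of a set of arrays -/
def flat {A : Type} (X : Set (A → V)) : Set V := {v | ∃ w ∈ X, ∃ z, w z = v}

/-- reachability for arrays -/
def Ra {A : Type} (c : ℝ) (X Y : Set (A → V)) : Prop := Rc c (flat X) (flat Y)

variable {A : Type} {X Y Z : Set (A → V)}

omit [AddCommGroup V] [Module ℂ V] in
theorem flat_mono (h : X ⊆ Y) : flat X ⊆ flat Y := fun _ ⟨w, hw, e⟩ => ⟨w, h hw, e⟩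

omit [AddCommGroup V] [Module ℂ V] in
theorem flat_union : flat (X ∪ Y) = flat X ∪ flat Y := by
  ext v; simp [flat, or_and_right, exists_or]

omit [AddCommGroup V] [Module ℂ V] in
theorem flat_singleton (w : A → V) : flat {w} = range w := by ext v; simp [flat]

theorem Ra.le (h : Ra a X Y) (hab : a ≤ b) : Ra b X Y := Rc.le h hab

theorem Ra.mono (h : Ra a X Y) {X' Y' : Set (A → V)} (h1 : X ⊆ X') (h2 : Y' ⊆ X' ∪ Y) :
    Ra a X' Y' :=
  Rc.mono h ((flat_mono h1).trans (subset_insert _ _)) (by rw [← flat_union]; exact flat_mono h2)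

theorem Ra.sub (h : Y ⊆ X) : Ra 0 X Y := Rc.sub ((flat_mono h).trans (subset_insert _ _))

theorem Ra.trans (h : Ra a X Y) (h' : Ra b (X ∪ Y) Z) : Ra (a + b) X Z :=
  Rc.trans h (by rwa [← flat_union])

theorem Ra.iUnion {ι : Type} [Fintype ι] {T : ι → Set (A → V)} (h : ∀ i, Ra a X (T i)) :
    Ra (Fintype.card ι * a) X (⋃ i, T i) :=
  Rc.mono (Rc.iUnion h) (subset_insert _ _) fun _ ⟨w, hw, e⟩ => .inr (by
    obtain ⟨i, hi⟩ := mem_iUnion.1 hw
    exact mem_iUnion.2 ⟨i, w, hi, e⟩)

theorem Ra.fam {ι : Type} [Fintype ι] {f : ι → A → V} (h : ∀ i, Ra a X {f i}) :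
    Ra (Fintype.card ι * a) X (range f) := by
  simpa only [iUnion_singleton_eq_range] using Ra.iUnion h

theorem Ra.pt [Fintype A] {w : A → V} (h : ∀ z, Rc a (flat X) {w z}) :
    Ra (Fintype.card A * a) X {w} := by
  unfold Ra; rw [flat_singleton]; exact Rc.fam h

theorem Ra.add [Fintype A] {u v : A → V} (hu : u ∈ X) (hv : v ∈ X) :
    Ra (Fintype.card A * 1) X {u + v} := .pt fun z => Rc.add ⟨u, hu, z, rfl⟩ ⟨v, hv, z, rfl⟩

theorem Ra.sub' [Fintype A] {u v : A → V} (hu : u ∈ X) (hv : v ∈ X) :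
    Ra (Fintype.card A * 1) X {u - v} := .pt fun z => Rc.sub' ⟨u, hu, z, rfl⟩ ⟨v, hv, z, rfl⟩

theorem Ra.sum [Fintype A] {ι : Type} [Fintype ι] (α : ι → ℂ) {v : ι → A → V} (h : ∀ i, v i ∈ X) :
    Ra (Fintype.card A * (2 * Fintype.card ι)) X {∑ i, α i • v i} := .pt fun z => by
  simpa using Rc.sum (S := flat X) univ α (v := fun i => v i z) fun i _ => ⟨_, h i, z, rfl⟩

/-- matrix acting on arrays -/
def ac {I J : Type} [Fintype J] (M : Matrix I J ℂ) (x : J → V) (i : I) : V := ∑ j, M i j • x j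

/-- cost of a matrix -/
def Co (V : Type) [AddCommGroup V] [Module ℂ V] {I J : Type} [Fintype J] (c : ℝ)
    (M : Matrix I J ℂ) : Prop := ∀ x : J → V, Rc c (range x) (range (ac M x))

variable {I J K : Type} [Fintype J] [Fintype K]

theorem ac_mul (M : Matrix I J ℂ) (N : Matrix J K ℂ) (x : K → V) :
    ac (M * N) x = ac M (ac N x) := by
  funext i
  simp only [ac, Matrix.mul_apply, sum_smul, smul_sum, mul_smul]
  exact sum_comm

theorem Co.le {M : Matrix I J ℂ} (h : Co V a M) (hab : a ≤ b) : Co V b M := fun x => (h x).le hab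

theorem Co.mul {M : Matrix I J ℂ} {N : Matrix J K ℂ} (h : Co V a M) (h' : Co V b N) :
    Co V (a + b) (M * N) := fun x => by
  rw [ac_mul, add_comm]
  exact (h' x).trans ((h _).mono (subset_union_right.trans (subset_insert _ _)) subset_union_right)

theorem Co.submatrix {I' J' : Type} [Fintype J'] {M : Matrix I J ℂ} (h : Co V a M) (f : I' → I)
    {g : J' → J} (hg : Function.Injective g) : Co V a (M.submatrix f g) := fun x => by
  refine (h (Function.extend g x 0)).mono ?_ ?_
  · rintro _ ⟨j, rfl⟩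
    by_cases hj : ∃ k, g k = j
    · obtain ⟨k, rfl⟩ := hj
      exact .inr ⟨k, (hg.extend_apply _ _ _).symm⟩
    · exact .inl (Function.extend_apply' _ _ _ hj)
  · rintro _ ⟨i, rfl⟩
    refine .inr ⟨f i, (Fintype.sum_of_injective g hg _ _ (fun j hj => ?_) fun k => ?_).symm⟩
    · rw [Function.extend_apply' _ _ _ hj]; simp
    · rw [hg.extend_apply]; rfl

theorem co_sparse [Fintype I] [DecidableEq J] (σ : I → J) (μ : I → ℂ) :
    Co V (Fintype.card I) (Matrix.of fun i j => if j = σ i then μ i else 0) := fun x => by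
  refine (Rc.fam (a := 1) fun i => ?_).le (by simp)
  simpa [ac] using Rc.smul (S := range x) (.inr ⟨σ i, rfl⟩) (μ i)

theorem co_diagonal [DecidableEq J] (μ : J → ℂ) : Co V (Fintype.card J) (Matrix.diagonal μ) := by
  convert co_sparse (V := V) id μ using 1
  ext i j; simp [Matrix.diagonal_apply, eq_comm]

theorem co_one [DecidableEq J] : Co V 0 (1 : Matrix J J ℂ) := fun x => Rc.sub (by
  rintro _ ⟨i, rfl⟩; exact .inr ⟨i, by simp [ac, Matrix.one_apply]⟩)

end Vale.Agent.P344
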