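import Vale.Agent.P344.Net

/-!
Convolution operators on elementary abelian two-groups.
-/

namespace Vale.Agent.P344

open Set Finset Matrix

variable {V : Type} [AddCommGroup V] [Module ℂ V] {A : Type} [AddCommGroup A] [Module Z A]

/-- sign character -/
def sg (a : Z) : ℂ := if a = 0 then 1 else -1

theorem zcases (a : Z) : a = 0 ∨ a = 1 := by revert a; decide

theorem sg_add (a b : Z) : sg (a + b) = sg a * sg b := by
  rcases zcases a with rfl | rfl <;> rcases zcases b with rfl | rfl <;>
    simp [sg, CharTwo.add_self_eq_zero]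

theorem sum_Z {M : Type} [AddCommMonoid M] (f : Z → M) : ∑ a, f a = f 0 + f 1 :=
  Fin.sum_univ_two f

/-- translation -/
noncomputable def tr (a : A) : AddMonoidAlgebra ℂ A := AddMonoidAlgebra.single a 1

omit [Module Z A] in
theorem tr_add (a b : A) : tr (a + b) = tr a * tr b := by
  simp [tr, AddMonoidAlgebra.single_mul_single]

omit [Module Z A] in
theorem tr_zero : tr (0 : A) = 1 := rfl

omit [Module Z A] in
theorem tr_sum {ι : Type} (s : Finset ι) (a : ι → A) : tr (∑ i ∈ s, a i) = ∏ i ∈ s, tr (a i) := by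
  induction s using Finset.cons_induction with
  | empty => rfl
  | cons i s hi ih => rw [sum_cons, prod_cons, tr_add, ih]

theorem tr_sq (a : A) : tr a * tr a = 1 := by
  rw [← tr_add, ← two_smul Z, show (2 : Z) = 0 from rfl, zero_smul, tr_zero]

/-- the basic kernel -/
noncomputable def γ (f : Z × Z) : ℂ := sg (f.1 * f.2) / 2

/-- the basic convolution -/
noncomputable def g (σ τ : A) : AddMonoidAlgebra ℂ A := ∑ f : Z × Z, γ f • tr (f.1 • σ + f.2 • τ)

theorem g_eq (σ τ : A) : g σ τ = (1 / 2 : ℂ) • (1 + tr σ + tr τ - tr σ * tr τ) := by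
  simp [g, γ, sg, Fintype.sum_prod_type, sum_Z, tr_add, tr_zero]
  module

theorem g_comm (σ τ : A) : g σ τ = g τ σ := by
  rw [g_eq, g_eq, mul_comm, add_right_comm]

theorem g_zero (τ : A) : g 0 τ = 1 := by
  rw [g_eq, tr_zero, one_mul]; module

theorem g_add (σ σ' τ : A) : g (σ + σ') τ = g σ τ * g σ' τ := by
  rw [g_eq, g_eq, g_eq, tr_add, smul_mul_smul_comm, mul_smul]
  congr 1
  rw [eq_comm, one_div, inv_smul_eq_iff₀ two_ne_zero, two_smul]
  linear_combination (1 - tr σ) * (1 - tr σ') * tr_sq τ

theorem g_sum {ι : Type} (s : Finset ι) (σ : ι → A) (τ : A) :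
    g (∑ i ∈ s, σ i) τ = ∏ i ∈ s, g (σ i) τ := by
  induction s using Finset.cons_induction with
  | empty => exact g_zero τ
  | cons i s hi ih => rw [sum_cons, prod_cons, g_add, ih]

theorem g_smul (c d : Z) (σ τ : A) : g ((c * d) • σ) τ = g (c • σ) (d • τ) := by
  rcases zcases d with rfl | rfl
  · simp [g_zero, g_comm _ (0 : A)]
  · simp

/-- the action of the group algebra on arrays -/
noncomputable def act (V : Type) [AddCommGroup V] [Module ℂ V] {A : Type} [AddCommGroup A] :
    AddMonoidAlgebra ℂ A →ₐ[ℂ] Module.End ℂ (A → V) :=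
  AddMonoidAlgebra.lift ℂ _ A
    { toFun := fun a => LinearMap.funLeft ℂ V (· + a.toAdd)
      map_one' := by ext; simp [LinearMap.funLeft]
      map_mul' := fun a b => by ext; simp [LinearMap.funLeft, add_assoc] }

omit [Module Z A] in
theorem act_tr (a : A) (x : A → V) (z : A) : act V (tr a) x z = x (z + a) := by
  simp [act, tr, LinearMap.funLeft]

variable {K : Type} [Fintype K]

/-- product of basic convolutions -/
noncomputable def wf (σ τ : K → A) : AddMonoidAlgebra ℂ A := ∏ l, g (σ l) (τ l)

/-- the associated homomorphism -/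
def Φ (σ τ : K → A) : (K → Z × Z) →+ A where
  toFun f := ∑ l, ((f l).1 • σ l + (f l).2 • τ l)
  map_zero' := by simp
  map_add' f f' := by
    simp only [Pi.add_apply, Prod.fst_add, Prod.snd_add, add_smul, sum_add_distrib]; abel

theorem act_wf [DecidableEq K] (σ τ : K → A) (x : A → V) (z : A) :
    act V (wf σ τ) x z = ∑ f : K → Z × Z, (∏ l, γ (f l)) • x (z + Φ σ τ f) := by
  simp only [wf, g, prod_univ_sum, Fintype.piFinset_univ, prod_smul, ← tr_sum, map_sum, map_smul,
    LinearMap.coe_sum, Finset.sum_apply, LinearMap.smul_apply, Pi.smul_apply, act_tr]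
  rfl

theorem naive [Fintype A] (σ τ : K → A) (x : A → V) :
    Ra (8 * Fintype.card K * Fintype.card A) {x} {act V (wf σ τ) x} := by
  classical
  have : ∀ s : Finset K, Ra (8 * s.card * Fintype.card A) {x}
      {act V (∏ l ∈ s, g (σ l) (τ l)) x} := by
    intro s
    induction s using Finset.induction_on with
    | empty => simpa using Ra.sub le_rfl
    | insert i s hi ih =>
      rw [prod_insert hi, card_insert_of_notMem hi, map_mul, Module.End.mul_apply]
      refine (ih.trans (Ra.pt (a := 8) fun z => ?_)).le (le_of_eq ?_)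
      · simp only [g, map_sum, map_smul, LinearMap.coe_sum, Finset.sum_apply,
          LinearMap.smul_apply, Pi.smul_apply, act_tr]
        refine (Rc.sum _ _ fun f _ => ?_).le (by norm_num)
        exact ⟨_, .inr rfl, _, rfl⟩
      · push_cast; ring
  exact this univ

/-- cost of the full transform -/
def Single (V : Type) [AddCommGroup V] [Module ℂ V] (k : ℕ) (c : ℝ) : Prop :=
  ∀ (K A : Type) [Fintype K] [AddCommGroup A] [Module Z A] [Fintype A] (σ τ : K → A),
    Fintype.card K = k → Function.Injective (Φ σ τ) →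
      ∀ x : A → V, Ra (c * Fintype.card A) {x} {act V (wf σ τ) x}

/-- the frames -/
noncomputable def fr (V : Type) [AddCommGroup V] [Module ℂ V] {J : Type} [Fintype J]
    (σ τ : J × K → A) (B : Matrix J J Z) : Module.End ℂ (A → V) :=
  act V (∏ l, ∏ s, ∏ t, g (B s t • σ (s, l)) (τ (t, l)))

theorem fr_one {J : Type} [Fintype J] [DecidableEq J] (σ τ : J × K → A) :
    fr V σ τ 1 = act V (wf σ τ) := by
  rw [fr, wf, Fintype.prod_prod_type_right]
  congr 1
  refine prod_congr rfl fun l _ => prod_congr rfl fun s _ => ?_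
  rw [prod_eq_single s (fun t _ ht => by simp [one_apply_ne' ht, g_zero]) (by simp)]
  simp

theorem fr_fr [Fintype A] {J : Type} [Fintype J] {σ τ : J × K → A}
    (h : Function.Injective (Φ σ τ)) {c : ℝ} (hc : 0 ≤ c) (hS : Single V (Fintype.card K) c) :
    Fr (c * Fintype.card A) (fr V σ τ) := by
  refine ⟨by simp [fr, g_zero], fun B B' w => ?_, fun a b w => ?_, by positivity⟩
  · simp only [fr, Matrix.add_apply, add_smul, g_add, prod_mul_distrib, map_mul]; rfl
  by_cases h0 : a = 0 ∨ b = 0
  · have : vecMulVec a b = 0 := by rcases h0 with rfl | rfl <;> simp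
    rw [this]
    exact (Ra.sub (by simp [fr, g_zero])).le (by positivity)
  have e : fr V σ τ (vecMulVec a b) =
      act V (wf (fun l => ∑ s, a s • σ (s, l)) fun l => ∑ t, b t • τ (t, l)) := by
    simp only [fr, wf, vecMulVec_apply, g_smul, g_sum]
    simp only [g_comm _ (∑ t, _), g_sum, g_comm (b _ • _)]
  rw [e]
  refine hS K A _ _ rfl (fun f f' hf => ?_) w
  have e1 : ∀ f : K → Z × Z, Φ (fun l => ∑ s, a s • σ (s, l)) (fun l => ∑ t, b t • τ (t, l)) f =
      Φ σ τ fun p => (a p.1 * (f p.2).1, b p.1 * (f p.2).2) := fun f => by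
    simp only [Φ, AddMonoidHom.coe_mk, ZeroHom.coe_mk, Fintype.sum_prod_type_right, smul_sum,
      sum_add_distrib, ← mul_smul, mul_comm]
  rw [e1, e1] at hf
  obtain ⟨h1, h2⟩ := not_or.1 h0
  obtain ⟨s, hs⟩ := Function.ne_iff.1 h1
  obtain ⟨t, ht⟩ := Function.ne_iff.1 h2
  funext l
  exact Prod.ext (mul_left_cancel₀ hs (congrArg Prod.fst (congrFun (h hf) (s, l))))
    (mul_left_cancel₀ ht (congrArg Prod.snd (congrFun (h hf) (t, l))))

end Vale.Agent.P344
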