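import Vale.Agent.P344.Had

/-!
Shallow in-place circuits.
-/

namespace Vale.Agent.P344

open Set Finset Matrix

variable {I J : Type} [Fintype I] [DecidableEq I] [Fintype J] [DecidableEq J]

/-- invertible monomial matrices -/
def Mon {I : Type} [DecidableEq I] (M : Matrix I I ℂ) : Prop :=
  ∃ (σ : Equiv.Perm I) (μ : I → ℂ), (∀ i, μ i ≠ 0) ∧ M = of fun i j => if j = σ i then μ i else 0

/-- weighted matchings -/
structure PM {I : Type} (N : Matrix I I ℂ) : Prop where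
  row : ∀ i j j', N i j ≠ 0 → N i j' ≠ 0 → j = j'
  col : ∀ i i' j, N i j ≠ 0 → N i' j ≠ 0 → i = i'
  nil : ∀ i j k, N i j ≠ 0 → N j k = 0

/-- one layer -/
def Gen (M : Matrix I I ℂ) : Prop := ∃ M0 N, Mon M0 ∧ PM N ∧ M = M0 * (1 + N)

/-- products of `D` layers -/
def Dep : ℕ → Matrix I I ℂ → Prop
  | 0, M => M = 1
  | D + 1, M => ∃ M' N, Dep D M' ∧ Gen N ∧ M = M' * N

omit [Fintype I] in
theorem mon_diagonal {μ : I → ℂ} (h : ∀ i, μ i ≠ 0) : Mon (diagonal μ) :=
  ⟨1, μ, h, by ext i j; simp [diagonal_apply, eq_comm]⟩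

omit [Fintype I] in
theorem mon_one : Mon (1 : Matrix I I ℂ) := mon_diagonal fun _ => one_ne_zero

omit [Fintype J] [DecidableEq J] in
theorem sp_mul (σ : I → I) (μ : I → ℂ) (N : Matrix I J ℂ) (i : I) (j : J) :
    (of (fun i j => if j = σ i then μ i else 0) * N) i j = μ i * N (σ i) j := by
  simp only [mul_apply, of_apply, ite_mul, zero_mul, sum_ite_eq', Finset.mem_univ, if_true]

theorem Mon.mul {M N : Matrix I I ℂ} (h : Mon M) (h' : Mon N) : Mon (M * N) := by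
  obtain ⟨σ, μ, h, rfl⟩ := h
  obtain ⟨σ', μ', h', rfl⟩ := h'
  exact ⟨σ' * σ, fun i => μ i * μ' (σ i), fun i => mul_ne_zero (h _) (h' _), by
    ext i j; simp [sp_mul]; rfl⟩

omit [Fintype I] [Fintype J] in
theorem Mon.submatrix {M : Matrix I I ℂ} (h : Mon M) (e e' : J ≃ I) : Mon (M.submatrix e e') := by
  obtain ⟨σ, μ, h, rfl⟩ := h
  exact ⟨(e.trans σ).trans e'.symm, fun i => μ (e i), fun i => h _, by
    ext i j; simp [Equiv.eq_symm_apply]⟩

omit [Fintype I] in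
theorem Mon.transpose {M : Matrix I I ℂ} (h : Mon M) : Mon Mᵀ := by
  obtain ⟨σ, μ, h, rfl⟩ := h
  refine ⟨σ.symm, fun i => μ (σ.symm i), fun i => h _, ?_⟩
  ext i j
  obtain ⟨i, rfl⟩ := σ.surjective i
  by_cases e : i = j
  · simp [e]
  · simp [e, Ne.symm e]

theorem Mon.inv {M : Matrix I I ℂ} (h : Mon M) : ∃ M', Mon M' ∧ M * M' = 1 := by
  obtain ⟨σ, μ, h, rfl⟩ := h
  exact ⟨_, ⟨σ.symm, fun i => (μ (σ.symm i))⁻¹, fun i => inv_ne_zero (h _), rfl⟩, by
    ext i j; simp [sp_mul, one_apply, h, eq_comm]⟩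

omit [Fintype I] [Fintype J] in
theorem Mon.sum {M : Matrix I I ℂ} {N : Matrix J J ℂ} (h : Mon M) (h' : Mon N) :
    Mon (fromBlocks M 0 0 N) := by
  obtain ⟨σ, μ, h, rfl⟩ := h
  obtain ⟨σ', μ', h', rfl⟩ := h'
  exact ⟨σ.sumCongr σ', Sum.elim μ μ', by rintro (i | i) <;> simp [h, h'], by
    ext (i | i) (j | j) <;> simp⟩

theorem pm_zero {I : Type} : PM (0 : Matrix I I ℂ) := ⟨by simp, by simp, by simp⟩

theorem PM.submatrix {I J : Type} {N : Matrix I I ℂ} (h : PM N) (e : J ≃ I) :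
    PM (N.submatrix e e) :=
  ⟨fun _ _ _ a b => e.injective (h.row _ _ _ a b), fun _ _ _ a b => e.injective (h.col _ _ _ a b),
    fun _ _ _ a => h.nil _ _ _ a⟩

theorem PM.transpose {I : Type} {N : Matrix I I ℂ} (h : PM N) : PM Nᵀ :=
  ⟨fun _ _ _ a b => h.col _ _ _ a b, fun _ _ _ a b => h.row _ _ _ a b,
    fun _ _ _ a => by_contra fun b => a (h.nil _ _ _ b)⟩

theorem PM.neg {I : Type} {N : Matrix I I ℂ} (h : PM N) : PM (-N) :=
  ⟨by simpa using h.row, by simpa using h.col, by simpa using h.nil⟩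

omit [DecidableEq I] in
theorem PM.sq {N : Matrix I I ℂ} (h : PM N) : N * N = 0 := by
  ext i j
  rw [mul_apply]
  refine sum_eq_zero fun k _ => ?_
  by_cases e : N i k = 0
  · rw [e, zero_mul]
  · rw [h.nil _ _ _ e, mul_zero]

theorem PM.sum {I J : Type} {M : Matrix I I ℂ} {N : Matrix J J ℂ} (h : PM M) (h' : PM N) :
    PM (fromBlocks M 0 0 N) := by
  constructor
  · rintro (i | i) (j | j) (k | k) <;> simp
    exacts [h.row _ _ _, h'.row _ _ _]
  · rintro (i | i) (j | j) (k | k) <;> simp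
    exacts [h.col _ _ _, h'.col _ _ _]
  · rintro (i | i) (j | j) (k | k) <;> simp
    exacts [h.nil _ _ _, h'.nil _ _ _]

theorem Mon.gen {M : Matrix I I ℂ} (h : Mon M) : Gen M := ⟨M, 0, h, pm_zero, by simp⟩

theorem PM.gen {N : Matrix I I ℂ} (h : PM N) : Gen (1 + N) := ⟨1, N, mon_one, h, by simp⟩

theorem Gen.dep {M : Matrix I I ℂ} (h : Gen M) : Dep 1 M := ⟨1, M, rfl, h, by simp⟩

theorem Dep.mul {a b : ℕ} {M N : Matrix I I ℂ} (h : Dep a M) (h' : Dep b N) :
    Dep (a + b) (M * N) := by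
  induction b generalizing N with
  | zero => rw [show N = 1 from h', mul_one]; exact h
  | succ b ih =>
    obtain ⟨N, G, h1, h2, rfl⟩ := h'
    exact ⟨_, G, ih h1, h2, (mul_assoc _ _ _).symm⟩

theorem dep_one (a : ℕ) : Dep a (1 : Matrix I I ℂ) := by
  induction a with
  | zero => rfl
  | succ a ih => exact ⟨1, 1, ih, mon_one.gen, by simp⟩

theorem Dep.le {a b : ℕ} {M : Matrix I I ℂ} (h : Dep a M) (hab : a ≤ b) : Dep b M := by
  obtain ⟨c, rfl⟩ := Nat.exists_eq_add_of_le hab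
  simpa using h.mul (dep_one c)

theorem Dep.submatrix {a : ℕ} {M : Matrix I I ℂ} (h : Dep a M) (e : J ≃ I) :
    Dep a (M.submatrix e e) := by
  induction a generalizing M with
  | zero => rw [show M = 1 from h]; exact submatrix_one_equiv e
  | succ a ih =>
    obtain ⟨M, _, h1, ⟨G, N, h2, h3, rfl⟩, rfl⟩ := h
    exact ⟨_, _, ih h1, ⟨_, _, h2.submatrix e e, h3.submatrix e, rfl⟩, by
      simp [← submatrix_mul_equiv _ _ _ e, submatrix_add]⟩

theorem Dep.submatrix' {a : ℕ} {M : Matrix I I ℂ} (h : Dep a M) (e e' : J ≃ I) :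
    Dep (a + 1) (M.submatrix e e') := by
  simpa [submatrix_mul_equiv] using (h.submatrix e).mul (mon_one.submatrix e e').gen.dep

theorem Dep.sum {a : ℕ} {M : Matrix I I ℂ} {N : Matrix J J ℂ} (h : Dep a M) (h' : Dep a N) :
    Dep a (fromBlocks M 0 0 N) := by
  induction a generalizing M N with
  | zero => rw [show M = 1 from h, show N = 1 from h']; exact fromBlocks_one
  | succ a ih =>
    obtain ⟨M, _, h1, ⟨G, P, h2, h3, rfl⟩, rfl⟩ := h
    obtain ⟨N, _, h1', ⟨G', P', h2', h3', rfl⟩, rfl⟩ := h'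
    exact ⟨_, _, ih h1 h1', ⟨_, _, h2.sum h2', h3.sum h3', rfl⟩, by
      simp [← fromBlocks_one, fromBlocks_add, fromBlocks_multiply]⟩

theorem Dep.transpose {a : ℕ} {M : Matrix I I ℂ} (h : Dep a M) : Dep (2 * a) Mᵀ := by
  induction a generalizing M with
  | zero => rw [show M = 1 from h]; exact transpose_one
  | succ a ih =>
    obtain ⟨M, _, h1, ⟨G, N, h2, h3, rfl⟩, rfl⟩ := h
    simpa [add_comm, mul_add, add_mul] using (h3.transpose.gen.dep.mul h2.transpose.gen.dep).mul (ih h1)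

theorem Dep.inv {a : ℕ} {M : Matrix I I ℂ} (h : Dep a M) :
    ∃ M', Dep (2 * a) M' ∧ M * M' = 1 := by
  induction a generalizing M with
  | zero => exact ⟨1, rfl, by rw [show M = 1 from h, mul_one]⟩
  | succ a ih =>
    obtain ⟨M, _, h1, ⟨G, N, h2, h3, rfl⟩, rfl⟩ := h
    obtain ⟨M', h4, h5⟩ := ih h1
    obtain ⟨G', h6, h7⟩ := h2.inv
    refine ⟨_, ((h3.neg.gen.dep.mul h6.gen.dep).mul h4).le (by omega), ?_⟩
    have : (1 + N) * (1 + -N) = 1 := by simp [add_mul, mul_add, h3.sq]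
    calc _ = M * (G * ((1 + N) * (1 + -N)) * G') * M' := by simp only [mul_assoc]
      _ = 1 := by rw [this, mul_one, h7, mul_one, h5]

theorem Dep.shear {ι : Type} (s : Finset ι) {a : ℕ} {N : ι → Matrix I I ℂ}
    (h : ∀ i, Dep a (1 + N i)) (h' : ∀ i j, N i * N j = 0) :
    Dep (s.card * a) (1 + ∑ i ∈ s, N i) := by
  induction s using Finset.cons_induction with
  | empty => simpa using dep_one 0
  | cons i s hi ih =>
    simpa [add_mul, mul_add, sum_mul, h', add_assoc, add_comm (N i)] using ih.mul (h i)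

end Vale.Agent.P344
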