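import Vale.Agent.P344.Basic

/-!
The finite network which saves passes.
-/

namespace Vale.Agent.P344

open Set Finset Matrix
open scoped Kronecker

/-- the field with two elements -/
abbrev Z := ZMod 2

variable {H : Type} [Fintype H] [DecidableEq H]

/-- sums of at most `m` rank one matrices -/
def Rk {H : Type} (m : ℕ) (B : Matrix H H Z) : Prop :=
  ∃ (ι : Type) (_ : Fintype ι) (c d : ι → H → Z), Fintype.card ι ≤ m ∧ B = ∑ s, vecMulVec (c s) (d s)

theorem rk_rank (B : Matrix H H Z) {m : ℕ} (hm : B.rank ≤ m) : Rk m B := by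
  let b := Module.finBasis Z (LinearMap.range B.mulVecLin)
  refine ⟨_, inferInstance, fun s => (b s).1,
    fun s y => b.repr ⟨B *ᵥ Pi.single y 1, _, rfl⟩ s, (Fintype.card_fin _).trans_le hm, ?_⟩
  ext x y
  have := congrArg (fun v => v.1 x) (b.sum_repr ⟨B *ᵥ Pi.single y 1, _, rfl⟩)
  simp only [Submodule.coe_sum, Submodule.coe_smul, Finset.sum_apply, Pi.smul_apply,
    smul_eq_mul] at this
  simp only [Matrix.sum_apply, vecMulVec_apply, mul_comm ((b _).1 x)]
  rw [this]; simp

theorem vmv_kron {H H' : Type} (c d : H → Z) (c' d' : H' → Z) :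
    vecMulVec c d ⊗ₖ vecMulVec c' d' =
      vecMulVec (fun u : H × H' => c u.1 * c' u.2) fun u => d u.1 * d' u.2 := by
  ext u v; simp [vecMulVec_apply]; ring

theorem Rk.kron {H H' : Type} {m m' : ℕ} {B : Matrix H H Z} {B' : Matrix H' H' Z} (h : Rk m B)
    (h' : Rk m' B') : Rk (m * m') (B ⊗ₖ B') := by
  obtain ⟨ι, _, c, d, h1, rfl⟩ := h
  obtain ⟨ι', _, c', d', h1', rfl⟩ := h'
  refine ⟨ι × ι', inferInstance, fun s u => c s.1 u.1 * c' s.2 u.2,
    fun s u => d s.1 u.1 * d' s.2 u.2, by simpa using Nat.mul_le_mul h1 h1', ?_⟩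
  ext u v
  simp only [kroneckerMap_apply, Matrix.sum_apply, vecMulVec_apply, sum_mul_sum,
    Fintype.sum_prod_type]
  exact sum_congr rfl fun _ _ => sum_congr rfl fun _ _ => by ring

theorem rk_vmv {H : Type} (c d : H → Z) : Rk 1 (vecMulVec c d) :=
  ⟨Unit, inferInstance, fun _ => c, fun _ => d, by simp, by simp⟩

theorem rk_one : Rk (Fintype.card H) (1 : Matrix H H Z) := rk_rank _ (by simp)

theorem rk_orth {m : ℕ} (t : Fin m → H → Z) (ht : ∀ i j, t i ⬝ᵥ t j = if i = j then 1 else 0)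
    {k : ℕ} (hk : Fintype.card H = k + m) : Rk k (1 + ∑ i, vecMulVec (t i) (t i)) := by
  have h1 : of t * (of t)ᵀ = 1 := by
    ext i j; rw [one_apply, ← ht]; rfl
  have h2 : ∑ i, vecMulVec (t i) (t i) = (of t)ᵀ * of t := by
    ext i j; simp [Matrix.sum_apply, mul_apply, vecMulVec_apply]
  have h3 := rank_add_rank_le_card_of_mul_eq_zero (A := 1 + (of t)ᵀ * of t) (B := (of t)ᵀ) (by
    rw [Matrix.add_mul, Matrix.mul_assoc, h1, Matrix.one_mul, Matrix.mul_one]
    ext i j; exact CharTwo.add_self_eq_zero _)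
  have h4 := rank_mul_le_right (of t) (of t)ᵀ
  rw [h1, rank_one, Fintype.card_fin] at h4
  exact rk_rank _ (by rw [h2]; omega)

variable {V : Type} [AddCommGroup V] [Module ℂ V] {A : Type} [Fintype A]

/-- a system of frames -/
structure Fr {H A : Type} (z : ℝ) (C : Matrix H H Z → Module.End ℂ (A → V)) : Prop where
  zero : C 0 = 1
  add : ∀ B B' w, C B (C B' w) = C (B + B') w
  mv : ∀ c d w, Ra z {w} {C (vecMulVec c d) w}
  nn : 0 ≤ z

theorem Fr.move {H A : Type} {z : ℝ} {C : Matrix H H Z → Module.End ℂ (A → V)} (hF : Fr z C)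
    {m : ℕ} {B : Matrix H H Z} (h : Rk m B) {X : Set (A → V)} {w : A → V} (hw : w ∈ X) :
    Ra (m * z) X {C B w} := by
  classical
  obtain ⟨ι, _, c, d, h1, rfl⟩ := h
  have : ∀ s : Finset ι, Ra (s.card * z) X {C (∑ i ∈ s, vecMulVec (c i) (d i)) w} := by
    intro s
    induction s using Finset.induction_on with
    | empty => simpa [hF.zero] using Ra.sub (by simpa)
    | insert i s hi ih =>
      rw [sum_insert hi, card_insert_of_notMem hi, ← hF.add]
      refine (ih.trans ((hF.mv _ _ _).mono subset_union_right subset_union_right)).le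
        (le_of_eq ?_)
      push_cast; ring
  exact (this univ).le (mul_le_mul_of_nonneg_right (by exact_mod_cast h1) hF.nn)

theorem madd_self {H : Type} (B : Matrix H H Z) : B + B = 0 := by
  ext i j; exact CharTwo.add_self_eq_zero _

/-- triples -/
abbrev Tr (H : Type) := {s : Finset H // s.card = 3}

/-- indicator vector -/
def tv (i : Tr H) (c : H) : Z := if c ∈ i.1 then 1 else 0

/-- rank one projection -/
def pj (i : Tr H) : Matrix H H Z := vecMulVec (tv i) (tv i)

/-- orthogonal partners -/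
abbrev Ev (j : Tr H) := {i : Tr H // Even (i.1 ∩ j.1).card}

theorem tv_dot (i j : Tr H) : tv i ⬝ᵥ tv j = ((i.1 ∩ j.1).card : Z) := by
  simp [tv, dotProduct, ← ite_and, and_comm, ← Finset.mem_inter]

theorem tv_self (i : Tr H) : tv i ⬝ᵥ tv i = 1 := by
  rw [tv_dot, Finset.inter_self, i.2]; rfl

theorem rk_p1 {k : ℕ} (hk : Fintype.card H = k + 2) (i : Tr H) : Rk (k + 1) (1 + pj i) := by
  simpa [pj] using rk_orth (m := 1) (fun _ => tv i) (by simp [tv_self, Subsingleton.elim _ (0 : Fin 1)])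
    (k := k + 1) hk

theorem rk_p2 {k : ℕ} (hk : Fintype.card H = k + 2) {j : Tr H} (i : Ev j) :
    Rk k (1 + pj i.1 + pj j) := by
  have h : tv i.1 ⬝ᵥ tv j = 0 := by rw [tv_dot]; exact (ZMod.natCast_eq_zero_iff_even).2 i.2
  simpa [add_assoc, pj] using rk_orth (m := 2) ![tv i.1, tv j] (by
    simp [Fin.forall_fin_two, tv_self, h, dotProduct_comm (tv j)]) hk

theorem key (x : Tr H → V) (j : Tr H) :
    ∑ i : Ev j, ((1 - (i.1.1 ∩ j.1).card) / 2 : ℂ) • x i.1 +
      ∑ c : H, (if c ∈ j.1 then 1 else 0 : ℂ) •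
        ∑ i, ((if c ∈ i.1 then 1 / 2 else 0) - 1 / 6 : ℂ) • x i = x j := by
  rw [← sum_subtype (univ.filter fun i : Tr H => Even (i.1 ∩ j.1).card) (by simp)
    fun i => ((1 - (i.1 ∩ j.1).card) / 2 : ℂ) • x i, sum_filter]
  simp only [smul_sum, ← mul_smul]
  rw [sum_comm, ← sum_add_distrib, sum_eq_single j ?_ (by simp)]
  · have : ¬ Even 3 := by decide
    simp [j.2, this, ← sum_smul, sum_sub_distrib]
    norm_num
  · intro i _ hi
    have h1 : (i.1 ∩ j.1).card ≤ 2 := by
      by_contra h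
      have e1 := eq_of_subset_of_card_le (inter_subset_left (s₁ := i.1) (s₂ := j.1))
        (by rw [i.2]; omega)
      have e2 := eq_of_subset_of_card_le (inter_subset_right (s₁ := i.1) (s₂ := j.1))
        (by rw [j.2]; omega)
      exact hi (Subtype.ext (e1.symm.trans e2))
    have h2 : ∑ c : H, (if c ∈ j.1 then 1 else 0 : ℂ) * ((if c ∈ i.1 then 1 / 2 else 0) - 1 / 6) =
        ((i.1 ∩ j.1).card - 1) / 2 := by
      simp [j.2, sum_sub_distrib, inter_comm j.1]
      ring
    rw [← sum_smul, h2]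
    split_ifs with h
    · rw [← add_smul]; ring_nf; simp
    · have : (i.1 ∩ j.1).card = 1 := by
        rw [Nat.not_even_iff_odd, Nat.odd_iff] at h; omega
      simp [this]

end Vale.Agent.P344
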