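import Vale.Agent.P344.Rec

/-!
Tensor powers of the Hadamard matrix.
-/

namespace Vale.Agent.P344

open Set Finset Matrix

variable {V : Type} [AddCommGroup V] [Module ℂ V]

/-- tensor product of a family of matrices -/
def piK {K : Type} [Fintype K] {I J : K → Type} (M : ∀ s, Matrix (I s) (J s) ℂ) :
    Matrix (∀ s, I s) (∀ s, J s) ℂ := of fun u v => ∏ s, M s (u s) (v s)

theorem piK_mul {K : Type} [Fintype K] [DecidableEq K] {I J L : K → Type} [∀ s, Fintype (J s)]
    (M : ∀ s, Matrix (I s) (J s) ℂ) (N : ∀ s, Matrix (J s) (L s) ℂ) :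
    piK (fun s => M s * N s) = piK M * piK N := by
  ext u v
  simp only [piK, of_apply, mul_apply, prod_univ_sum, Fintype.piFinset_univ, prod_mul_distrib]

/-- the Hadamard matrix -/
def hz : Matrix Z Z ℂ := of fun a b => sg (a * b)

theorem sg_key (a b : Z × Z) :
    2 * sg (a.1 * a.2) * γ (b - a) * sg (b.1 * b.2) = sg (a.1 * b.2) * sg (a.2 * b.1) := by
  obtain ⟨a, a'⟩ := a
  obtain ⟨b, b'⟩ := b
  rcases zcases a with rfl | rfl <;> rcases zcases a' with rfl | rfl <;>
    rcases zcases b with rfl | rfl <;> rcases zcases b' with rfl | rfl <;> simp [γ, sg] <;>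
      norm_num

theorem co_had : ∃ C : ℝ, 0 ≤ C ∧ ∀ (V : Type) [AddCommGroup V] [Module ℂ V] (K : Type)
    [Fintype K] [DecidableEq K], Co V (C * (Fintype.card K + 1) ^ (1 - 2 / 10 ^ 8 : ℝ) *
      2 ^ Fintype.card K) (piK fun _ : K => hz) := by
  obtain ⟨C, C0, hC⟩ := single_bound
  refine ⟨(C + 2) * 2, by positivity, fun V _ _ K _ _ => ?_⟩
  obtain ⟨k, hk, hk'⟩ : ∃ k, Fintype.card K ≤ 2 * k ∧ 2 * k ≤ Fintype.card K + 1 :=
    ⟨(Fintype.card K + 1) / 2, by omega, by omega⟩
  let s0 : Fin k → Fin k → Z × Z := fun l => Pi.single l (1, 0)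
  let t0 : Fin k → Fin k → Z × Z := fun l => Pi.single l (0, 1)
  have h3 : ∀ f, Φ s0 t0 f = f := fun f => by
    funext l
    simp [Φ, s0, t0, Pi.single_apply, Finset.sum_apply, sum_add_distrib]
  have h1 : Co V (C * k ^ (1 - 2 / 10 ^ 8 : ℝ) * Fintype.card (Fin k → Z × Z))
      (of fun u v : Fin k → Z × Z => ∏ l, γ (v l - u l)) := fun x => by
    have := hC V k _ _ s0 t0 (by simp) (fun f f' h => by rwa [h3, h3] at h) x
    rw [Ra, flat_singleton, flat_singleton] at this
    convert this using 2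
    funext u
    simp only [act_wf, h3, ac, of_apply]
    exact (Fintype.sum_equiv (Equiv.addLeft u) _ _ fun f => by simp).symm
  obtain ⟨j⟩ : Nonempty (K ↪ Fin k × Bool) :=
    Function.Embedding.nonempty_of_card_le (by simp; omega)
  have h2 := (((co_diagonal (V := V) fun u => ∏ l, 2 * sg ((u l).1 * (u l).2)).mul h1).mul
    (co_diagonal fun u => ∏ l, sg ((u l).1 * (u l).2))).submatrix
    (fun (u : K → Z) l => (Function.extend j u 0 (l, false), Function.extend j u 0 (l, true)))
    (g := fun (u : K → Z) l => (Function.extend j u 0 (l, true), Function.extend j u 0 (l, false)))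
    (fun u v h => by
      funext s
      have : Function.extend j u 0 (j s) = Function.extend j v 0 (j s) := by
        obtain ⟨l, (_ | _)⟩ := j s
        exacts [congrArg Prod.snd (congrFun h l), congrArg Prod.fst (congrFun h l)]
      rwa [j.injective.extend_apply, j.injective.extend_apply] at this)
  convert h2.le ?_ using 1
  · ext u v
    simp only [submatrix_apply, mul_diagonal, diagonal_mul, of_apply, ← prod_mul_distrib, piK, hz]
    rw [Fintype.prod_of_injective j j.injective _
      (fun p => sg (Function.extend j u 0 p * Function.extend j v 0 p)) (fun p hp => by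
        rw [Function.extend_apply' _ _ _ hp]; simp [sg])
      fun s => by rw [j.injective.extend_apply, j.injective.extend_apply], Fintype.prod_prod_type]
    refine prod_congr rfl fun l _ => ?_
    rw [Fintype.prod_bool, mul_comm]
    exact (sg_key (_, _) (_, _)).symm
  · have e1 : (Fintype.card (Fin k → Z × Z) : ℝ) ≤ 2 * 2 ^ Fintype.card K := by
      simp only [Fintype.card_pi, Fintype.card_prod, ZMod.card, prod_const, card_univ,
        Fintype.card_fin]
      rw [← pow_succ', ← sq, ← pow_mul]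
      exact_mod_cast Nat.pow_le_pow_right (by norm_num) hk'
    have e2 : (k : ℝ) ^ (1 - 2 / 10 ^ 8 : ℝ) ≤ (Fintype.card K + 1) ^ (1 - 2 / 10 ^ 8 : ℝ) :=
      Real.rpow_le_rpow (by positivity) (by exact_mod_cast (by omega)) (by norm_num)
    have e3 : (1 : ℝ) ≤ (Fintype.card K + 1) ^ (1 - 2 / 10 ^ 8 : ℝ) :=
      Real.one_le_rpow (by simp) (by norm_num)
    have e4 : (0 : ℝ) ≤ Fintype.card (Fin k → Z × Z) := by positivity
    have e5 : (0 : ℝ) ≤ k ^ (1 - 2 / 10 ^ 8 : ℝ) := by positivity
    generalize (Fintype.card (Fin k → Z × Z) : ℝ) = a at *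
    generalize (k : ℝ) ^ (1 - 2 / 10 ^ 8 : ℝ) = b at *
    generalize ((Fintype.card K : ℝ) + 1) ^ (1 - 2 / 10 ^ 8 : ℝ) = c at *
    calc a + C * b * a + a = (C * b + 2 * 1) * a := by ring
      _ ≤ (C * c + 2 * c) * (2 * 2 ^ Fintype.card K) := by gcongr
      _ = _ := by ring

end Vale.Agent.P344
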