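import Vale.Agent.P344.Toep

/-!
The Fourier transform of every length.
-/

namespace Vale.Agent.P344

open Set Finset Matrix

variable {V : Type} [AddCommGroup V] [Module ℂ V] {K : Type} [Fintype K] [DecidableEq K]

theorem co_tensor {c : ℝ} (hc : 0 ≤ c) (h : Co V (c * 2 ^ Fintype.card K) (piK fun _ : K => hz))
    {m : K → ℕ} {ω : K → ℂ} {D : ℕ} (hD : ∀ s, Dep D (ft (m s) (ω s))) :
    Co V (D * (3 * c + 4) * ∏ s, (m s + 1 : ℝ)) (piK fun s => ft (m s) (ω s)) := by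
  let ε : ∀ s, Fin (m s) ⊕ Fin (m s % 2) ≃ Fin ((m s + 1) / 2) × Z := fun s =>
    Fintype.equivOfCardEq (by simp; omega)
  convert ((co_dep h D fun s => ((hD s).sum (dep_one D)).submatrix (ε s).symm).submatrix
    (fun (u : ∀ s, Fin (m s)) s => ε s (.inl (u s))) (g := fun u s => ε s (.inl (u s))) fun u v e => funext fun s => by
      simpa using congrFun e s).le ?_
  · ext u v; simp [piK]
  · gcongr
    rw [Fintype.card_pi]
    push_cast
    refine prod_le_prod (fun _ _ => by positivity) fun s _ => ?_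
    have : Fintype.card (Fin ((m s + 1) / 2) × Z) ≤ m s + 1 := by simp; omega
    exact_mod_cast this

omit [DecidableEq K] in
theorem crt_eq {m : K → ℕ} (hm : Pairwise (Function.onFun Nat.Coprime m)) {a b : ℕ}
    (ha : a < ∏ s, m s) (hb : b < ∏ s, m s) (h : ∀ s, a ≡ b [MOD m s]) : a = b := by
  refine Nat.ModEq.eq_of_lt_of_lt (Nat.modEq_iff_dvd.2 ?_) ha hb
  push_cast
  exact Fintype.prod_dvd_of_coprime (fun s t e => Nat.isCoprime_iff_coprime.2 (hm e))
    fun s => Nat.modEq_iff_dvd.1 (h s)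

theorem co_hankel {m : K → ℕ} (hm : Pairwise (Function.onFun Nat.Coprime m)) (h0 : ∀ s, 0 < m s)
    {ω : K → ℂ} (hω : ∀ s, IsPrimitiveRoot (ω s) (m s)) {a : ℝ}
    (h : Co V a (piK fun s => ft (m s) (ω s))) {n : ℕ} (hn : 2 * n ≤ ∏ s, m s) (c : ℕ → ℂ) :
    Co V (2 * a + ∏ s, (m s : ℝ)) (of fun j k : Fin n => c (j + k)) := by
  let crt : Fin n → ∀ s, Fin (m s) := fun j s => ⟨j % m s, Nat.mod_lt _ (h0 s)⟩
  have : Nonempty (∀ s, Fin (m s)) := ⟨fun s => ⟨0, h0 s⟩⟩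
  have h1 : Function.Injective crt := fun j k e => Fin.ext (crt_eq hm (by omega) (by omega)
    fun s => congrArg Fin.val (congrFun e s))
  let z : (∀ s, Fin (m s)) → ℂ := fun u => ∏ s, ω s ^ (u s).val
  have h2 : ∀ s (j u : ℕ), ω s ^ (j % m s * u) = (ω s ^ u) ^ j := fun s j u => by
    rw [pow_mul, (hω s).eq_orderOf, pow_mod_orderOf, ← pow_mul, ← pow_mul, mul_comm]
  convert (((h.submatrix crt Function.injective_id).mul (co_diagonal fun u =>
    (∑ t ∈ range (∏ s, m s), c t * (z u)⁻¹ ^ t) / Fintype.card (∀ s, Fin (m s)))).mul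
      (h.submatrix id h1)).le (le_of_eq ?_) using 1
  · ext j k
    rw [of_apply, ← conv (z := z) (N := ∏ s, m s) (fun a ha t ht => ?_) c (by omega), mul_apply]
    · simp [piK, ft, crt, h2, mul_comm _ (_ % _), z, Finset.prod_pow]
    · simp only [z, ← prod_inv_distrib, ← Finset.prod_pow, ← prod_mul_distrib]
      rw [← Fintype.piFinset_univ, ← prod_univ_sum (fun _ => univ)
        fun s (u : Fin (m s)) => (ω s ^ u.val) ^ a * (ω s ^ u.val)⁻¹ ^ t]
      simp only [fun s => sum_root (hω s) (h0 s), prod_ite_zero]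
      by_cases e : a = t
      · simp [e, Nat.ModEq.refl]
      · rw [if_neg e, if_neg fun h => e (crt_eq hm ha ht fun s => h s (mem_univ s))]
  · simp; ring

theorem co_ft {n : ℕ} {ζ : ℂ} (h0 : ζ ≠ 0) {a : ℝ}
    (h : Co V a (of fun j k : Fin n => ζ ^ (j.val + k.val).choose 2)) :
    Co V (a + 2 * n) (ft n ζ) := by
  convert (((co_diagonal fun j : Fin n => (ζ ^ j.val.choose 2)⁻¹).mul h).mul
    (co_diagonal fun j : Fin n => (ζ ^ j.val.choose 2)⁻¹)).le (le_of_eq ?_) using 1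
  · ext j k
    have : ∀ j k : ℕ, (j + k).choose 2 = j.choose 2 + k.choose 2 + j * k := fun j k => by
      induction k with
      | zero => simp
      | succ k ih =>
        rw [← add_assoc, Nat.choose_succ_succ' (j + k) 1, Nat.choose_succ_succ' k 1, ih]
        simp; ring
    simp only [ft, of_apply, mul_diagonal, diagonal_mul, this, pow_add]
    field_simp
  · simp; ring

theorem exists_subset (q : ℕ → ℕ) {B X : ℕ} (hX : 1 ≤ X) (A : Finset ℕ) (hq : ∀ p ∈ A, q p ≤ B)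
    (h : X < ∏ p ∈ A, q p) : ∃ S ⊆ A, ∏ p ∈ S, q p ≤ X ∧ X < B * ∏ p ∈ S, q p := by
  induction A using Finset.induction_on with
  | empty => simp at h; omega
  | insert a A ha ih =>
    by_cases h1 : X < ∏ p ∈ A, q p
    · obtain ⟨S, h2, h3⟩ := ih (fun p hp => hq p (mem_insert_of_mem hp)) h1
      exact ⟨S, h2.trans (subset_insert _ _), h3⟩
    · rw [prod_insert ha] at h
      exact ⟨A, subset_insert _ _, not_lt.1 h1,
        h.trans_le (Nat.mul_le_mul_right _ (hq a (mem_insert_self _ _)))⟩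

theorem big_prod {l : ℕ} (hl : 7 ≤ l) : 2 ^ l ≤ ∏ p ∈ (range (2 * l ^ 2 + 1)).filter
    (fun p => l ≤ p ∧ (l ^ 2).centralBinom.factorization p ≠ 0),
      p ^ (l ^ 2).centralBinom.factorization p := by
  have h1 := Nat.four_pow_le_two_mul_self_mul_centralBinom (l ^ 2) (by positivity)
  have h2 : 2 * l ^ 2 ≤ 2 ^ l := by
    induction l, hl using Nat.le_induction with
    | base => norm_num
    | succ l hl ih => rw [pow_succ 2]; nlinarith [ih (Nat.four_pow_le_two_mul_self_mul_centralBinom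
        (l ^ 2) (by positivity))]
  rw [← Nat.prod_pow_factorization_centralBinom, ← prod_filter_mul_prod_filter_not _
    (fun p => l ≤ p ∧ (l ^ 2).centralBinom.factorization p ≠ 0)] at h1
  have h3 : ∏ p ∈ (range (2 * l ^ 2 + 1)).filter
      (fun p => ¬ (l ≤ p ∧ (l ^ 2).centralBinom.factorization p ≠ 0)),
      p ^ (l ^ 2).centralBinom.factorization p ≤ (2 ^ l) ^ l := by
    refine (prod_le_prod_of_subset_of_one_le' (t := _ ∪ range l) subset_union_left
      fun p _ _ => ?_).trans ?_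
    · rcases p.eq_zero_or_pos with rfl | h
      · simp
      · exact Nat.one_le_pow _ _ h
    rw [← prod_subset subset_union_right fun p hp hp' => by simp_all]
    simpa [Nat.centralBinom] using prod_le_pow_card (range l) _ _ fun p _ =>
      (Nat.pow_factorization_choose_le (by positivity)).trans h2
  refine Nat.le_of_mul_le_mul_right (le_trans ?_ (h1.trans ?_)) (show 0 < 2 ^ l * (2 ^ l) ^ l by
    positivity)
  · rw [← pow_mul, ← pow_add, ← pow_add, show 4 = 2 ^ 2 from rfl, ← pow_mul]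
    exact Nat.pow_le_pow_right two_pos (by nlinarith)
  · rw [mul_left_comm]; gcongr

theorem moduli {X l : ℕ} (hl : 7 ≤ l) (h1 : 1 ≤ X) (h2 : X < 2 ^ l) :
    ∃ (K : Type) (_ : Fintype K) (_ : DecidableEq K) (m : K → ℕ),
      Pairwise (Function.onFun Nat.Coprime m) ∧ (∀ s, 0 < m s ∧ m s ≤ 4 * l ^ 2) ∧
      Fintype.card K ≤ l + 1 ∧ X ≤ ∏ s, m s ∧ ∏ s, m s ≤ 2 * X ∧ ∏ s, (m s + 1 : ℝ) ≤ 12 * X := by
  classical
  have h3 : ∀ p, p ^ (l ^ 2).centralBinom.factorization p ≤ 2 * l ^ 2 := fun p =>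
    Nat.pow_factorization_choose_le (by positivity)
  obtain ⟨S, hS, h4, h5⟩ := exists_subset _ h1 _ (fun p _ => h3 p) (h2.trans_le (big_prod hl))
  have h6 : ∀ p ∈ S, p.Prime ∧ l ≤ p ∧ l ≤ p ^ (l ^ 2).centralBinom.factorization p := fun p hp => by
    obtain ⟨-, a, b⟩ := mem_filter.1 (hS hp)
    exact ⟨by_contra fun h => b (Nat.factorization_eq_zero_of_not_prime _ h), a,
      a.trans (Nat.le_self_pow b p)⟩
  generalize (l ^ 2).centralBinom.factorization = v at *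
  have h7 : 2 ^ S.card ≤ ∏ p ∈ S, p ^ v p :=
    pow_card_le_prod _ _ _ fun p hp => by have := (h6 p hp).2.2; omega
  have h8 : S.card ≤ l := ((Nat.pow_lt_pow_iff_right one_lt_two).1 ((h7.trans h4).trans_lt h2)).le
  have h9 : 0 < ∏ p ∈ S, p ^ v p := lt_of_lt_of_le (by positivity) h7
  obtain ⟨e, e1, e2⟩ : ∃ e, X ≤ 2 ^ e * ∏ p ∈ S, p ^ v p ∧ 2 ^ e * ∏ p ∈ S, p ^ v p ≤ 2 * X := by
    have h : ∃ e, X ≤ 2 ^ e * ∏ p ∈ S, p ^ v p := ⟨l, h2.le.trans (Nat.le_mul_of_pos_right _ h9)⟩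
    refine ⟨_, Nat.find_spec h, ?_⟩
    rcases h' : Nat.find h with _ | e
    · omega
    · have := Nat.find_min h (m := e) (by omega)
      rw [pow_succ', mul_assoc]; omega
  refine ⟨Option S, inferInstance, inferInstance, fun s => s.elim (2 ^ e) fun p => p.1 ^ v p.1,
    ?_, ?_, by simpa using h8, ?_, ?_, ?_⟩
  · have : ∀ p : S, Nat.Coprime (2 ^ e) (p.1 ^ v p.1) := fun p => Nat.Coprime.pow _ _
      ((Nat.coprime_primes Nat.prime_two (h6 _ p.2).1).2 (by have := (h6 _ p.2).2.1; omega))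
    rintro (_ | p) (_ | p') h
    exacts [absurd rfl h, this _, (this _).symm, Nat.Coprime.pow _ _
      ((Nat.coprime_primes (h6 _ p.2).1 (h6 _ p'.2).1).2 fun e => h (by rw [Subtype.ext e]))]
  · rintro (_ | p)
    · exact ⟨Nat.two_pow_pos e, Nat.le_of_mul_le_mul_right (by
        change 2 ^ e * _ ≤ _; rw [show 4 = 2 * 2 from rfl, mul_assoc, mul_assoc, ← mul_assoc 2 (l ^ 2)]
        omega) h9⟩
    · have := (h6 _ p.2).2.2
      have := h3 p
      constructor <;> simp only [Option.elim] <;> omega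
  · simpa [prod_coe_sort S fun p => p ^ v p] using e1
  · simpa [prod_coe_sort S fun p => p ^ v p] using e2
  · have l0 : (0 : ℝ) < l := by positivity
    have k1 : ∏ p ∈ S, ((p : ℝ) ^ v p + 1) ≤ ∏ p ∈ S, (p : ℝ) ^ v p * Real.exp (1 / l) :=
      prod_le_prod (fun _ _ => by positivity) fun p hp => by
        have a : (l : ℝ) ≤ p ^ v p := by exact_mod_cast (h6 p hp).2.2
        have b := mul_le_mul_of_nonneg_left (Real.add_one_le_exp (1 / l)) (l0.le.trans a)
        have c := (one_le_div l0).2 a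
        rw [mul_add, mul_one_div] at b
        linarith
    have k2 : Real.exp (1 / l) ^ S.card ≤ 3 := by
      rw [← Real.exp_nat_mul]
      refine (Real.exp_le_exp.2 ?_).trans (Real.exp_one_lt_d9.le.trans (by norm_num))
      rw [mul_one_div, div_le_one l0]; exact_mod_cast h8
    have k3 : (2 : ℝ) ^ e * ∏ p ∈ S, (p : ℝ) ^ v p ≤ 2 * X := by exact_mod_cast e2
    have k4 : (1 : ℝ) ≤ 2 ^ e := one_le_pow₀ one_le_two
    rw [prod_mul_distrib, prod_const] at k1
    simp only [Fintype.prod_option, Option.elim, Nat.cast_pow, Nat.cast_ofNat,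
      prod_coe_sort S fun p => (p : ℝ) ^ v p + 1]
    calc _ ≤ (2 ^ e + 2 ^ e) * ((∏ p ∈ S, (p : ℝ) ^ v p) * 3) := by
          gcongr; exact k1.trans (by gcongr)
      _ ≤ _ := by linarith

theorem co_naive {n : ℕ} (M : Matrix (Fin n) (Fin n) ℂ) : Co V (n * (2 * n)) M := fun x => by
  simpa using Rc.fam (f := ac M x) fun i => Rc.sum (S := Set.range x) univ (M i) fun j _ => ⟨j, rfl⟩

theorem main : ∃ C : ℝ, ∀ (V : Type) [AddCommGroup V] [Module ℂ V] (n : ℕ), 2 ≤ n → ∀ ζ : ℂ,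
    ζ ≠ 0 → Co V (C * n * Real.logb 2 n ^ (1 - 1 / 10 ^ 8 : ℝ)) (ft n ζ) := by
  obtain ⟨C, C0, hC⟩ := co_had
  refine ⟨(48 * 20358 * (4 + 8 * 10 ^ 8) ^ 2 * (6 * C + 4) + 64) * 3,
    fun V _ _ n hn ζ hζ => ?_⟩
  have n0 : (0 : ℝ) < n := by positivity
  have g1 : 1 ≤ Real.logb 2 n := by
    rw [Real.le_logb_iff_rpow_le one_lt_two n0, Real.rpow_one]; exact_mod_cast hn
  have g2 : 1 ≤ Real.logb 2 n ^ (1 - 1 / 10 ^ 8 : ℝ) := Real.one_le_rpow g1 (by norm_num)
  obtain ⟨l, hl, hl'⟩ : ∃ l : ℕ, 2 * n < 2 ^ l ∧ (l : ℝ) ≤ 3 * Real.logb 2 n := by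
    refine ⟨Nat.log 2 n + 2, ?_, ?_⟩
    · have := Nat.lt_pow_succ_log_self one_lt_two n
      rw [pow_succ]; omega
    · have := Real.natLog_le_logb n 2
      push_cast at *; linarith
  by_cases h7 : l < 7
  · refine (co_naive _).le ?_
    have : (2 * n : ℝ) ≤ 64 := by
      exact_mod_cast hl.le.trans (Nat.pow_le_pow_right two_pos (by omega : l ≤ 6))
    calc _ ≤ (n : ℝ) * 64 := by gcongr
      _ = 64 * 1 * n * 1 := by ring
      _ ≤ _ := by
        gcongr
        · exact le_add_of_nonneg_left (by positivity)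
        · norm_num
  obtain ⟨K, _, _, m, m1, m2, m3, m4, m5, m6⟩ := moduli (not_lt.1 h7) (by omega) hl
  have l1 : (7 : ℝ) ≤ l := by exact_mod_cast not_lt.1 h7
  have hT : 4 * l ^ 2 ≤ 2 ^ (2 * Nat.log 2 l + 4) := by
    have := Nat.pow_le_pow_left (Nat.lt_pow_succ_log_self one_lt_two l).le 2
    calc _ ≤ 4 * (2 ^ (Nat.log 2 l + 1)) ^ 2 := Nat.mul_le_mul_left _ this
      _ = _ := by ring
  have hω := fun s => Complex.isPrimitiveRoot_exp (m s) (m2 s).1.ne'
  refine (co_ft hζ (co_hankel m1 (fun s => (m2 s).1) hω (co_tensor (by positivity) (hC V K)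
    fun s => dep_ft ((m2 s).2.trans hT) (hω s)) m4 fun t => ζ ^ t.choose 2)).le ?_
  have k1 : ∏ s, (m s : ℝ) ≤ 4 * n := by exact_mod_cast m5.trans (by omega)
  have k2 : ((Fintype.card K : ℝ) + 1) ^ (1 - 2 / 10 ^ 8 : ℝ) ≤ 2 * l ^ (1 - 2 / 10 ^ 8 : ℝ) := by
    have : (Fintype.card K : ℝ) ≤ l + 1 := by exact_mod_cast m3
    refine (Real.rpow_le_rpow (by positivity) (show _ ≤ 2 * (l : ℝ) by linarith)
      (by norm_num)).trans ?_
    rw [Real.mul_rpow (by norm_num) (by positivity)]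
    gcongr
    exact (Real.rpow_le_rpow_of_exponent_le one_le_two (show _ ≤ (1 : ℝ) by norm_num)).trans
      (by simp)
  have k3 : (1 : ℝ) ≤ l ^ (1 / (2 * 10 ^ 8) : ℝ) := Real.one_le_rpow (by linarith) (by norm_num)
  have k4 : (1 : ℝ) ≤ l ^ (1 - 2 / 10 ^ 8 : ℝ) := Real.one_le_rpow (by linarith) (by norm_num)
  have k5 : ((2 * Nat.log 2 l + 4 : ℕ) : ℝ) ≤ (4 + 8 * 10 ^ 8) * l ^ (1 / (2 * 10 ^ 8) : ℝ) := by
    have a := Real.natLog_le_logb l 2
    have b := Real.log_le_rpow_div (x := l) (by positivity) (show 0 < (1 / (2 * 10 ^ 8) : ℝ) by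
      norm_num)
    have c := Real.log_two_gt_d9
    rw [Real.logb, Nat.cast_ofNat, le_div_iff₀ (by linarith)] at a
    have d : (0 : ℝ) ≤ Nat.log 2 l := by positivity
    push_cast
    nlinarith
  have k6 : (l ^ (1 / (2 * 10 ^ 8) : ℝ)) ^ 2 * l ^ (1 - 2 / 10 ^ 8 : ℝ) ≤
      3 * Real.logb 2 n ^ (1 - 1 / 10 ^ 8 : ℝ) := by
    rw [← Real.rpow_natCast, ← Real.rpow_mul (by positivity), ← Real.rpow_add (by positivity),
      show (1 / (2 * 10 ^ 8) * (2 : ℕ) + (1 - 2 / 10 ^ 8) : ℝ) = 1 - 1 / 10 ^ 8 by norm_num]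
    refine (Real.rpow_le_rpow (by positivity) hl' (by norm_num)).trans ?_
    rw [Real.mul_rpow (by norm_num) (by positivity)]
    gcongr
    exact (Real.rpow_le_rpow_of_exponent_le (by norm_num) (show _ ≤ (1 : ℝ) by norm_num)).trans
      (by simp)
  have k7 : 1 ≤ 2 * Nat.log 2 l + 4 := by omega
  generalize 2 * Nat.log 2 l + 4 = T at *
  have k8 : ((6 + 3 * T * (32 * (96 * T + 116)) : ℕ) : ℝ) ≤ 20358 * T ^ 2 := by
    exact_mod_cast (by nlinarith : 6 + 3 * T * (32 * (96 * T + 116)) ≤ 20358 * T ^ 2)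
  push_cast at m6
  generalize (l : ℝ) ^ (1 / (2 * 10 ^ 8) : ℝ) = a at *
  generalize (l : ℝ) ^ (1 - 2 / 10 ^ 8 : ℝ) = b at *
  generalize Real.logb 2 n ^ (1 - 1 / 10 ^ 8 : ℝ) = g at *
  calc _ ≤ 2 * (20358 * ((4 + 8 * 10 ^ 8) * a) ^ 2 * (3 * (C * (2 * b)) + 4 * b) * (12 * (2 * n))) +
        4 * n + 2 * n := by
        gcongr
        · exact k8.trans (by gcongr)
        · linarith
    _ = (48 * 20358 * (4 + 8 * 10 ^ 8) ^ 2 * (6 * C + 4) * (a ^ 2 * b) + 6 * 1) * n := by ring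
    _ ≤ (48 * 20358 * (4 + 8 * 10 ^ 8) ^ 2 * (6 * C + 4) * (3 * g) + 192 * g) * n := by
        gcongr; norm_num
    _ = _ := by ring

end Vale.Agent.P344
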