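import Vale.Agent.P344.Stage

/-!
The complete network.
-/

namespace Vale.Agent.P344

open Set Finset Matrix
open scoped Kronecker

variable {H : Type} [Fintype H] [DecidableEq H]
variable {V : Type} [AddCommGroup V] [Module ℂ V] {A : Type} [Fintype A]

theorem Fr.left {H A : Type} {z : ℝ} {C : Matrix (H × H) (H × H) Z → Module.End ℂ (A → V)}
    (hF : Fr z C) (j : Tr H) [DecidableEq H] : Fr z fun B : Matrix H H Z => C (B ⊗ₖ pj j) :=
  ⟨by simp [hF.zero], fun B B' w => by rw [hF.add, add_kronecker],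
    fun c d w => by rw [pj, vmv_kron]; exact hF.mv _ _ _, hF.nn⟩

theorem Fr.right {H A : Type} {z : ℝ} {C : Matrix (H × H) (H × H) Z → Module.End ℂ (A → V)}
    (hF : Fr z C) (j : Tr H) [DecidableEq H] : Fr z fun B : Matrix H H Z => C (pj j ⊗ₖ B) :=
  ⟨by simp [hF.zero], fun B B' w => by rw [hF.add, kronecker_add],
    fun c d w => by rw [pj, vmv_kron]; exact hF.mv _ _ _, hF.nn⟩

/-- registers -/
abbrev Reg (H : Type) [DecidableEq H] := (Tr H × Tr H ⊕ Tr H × Tr H) ⊕ (Tr H × Hp H ⊕ Tr H × Hp H)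

theorem network {z : ℝ} {C : Matrix (H × H) (H × H) Z → Module.End ℂ (A → V)} (hF : Fr z C)
    {k : ℕ} (hk : Fintype.card H = k + 2) (w : Reg H → A → V) {n e : ℝ}
    (hn : n = Fintype.card (Tr H)) (he : e = Fintype.card (Hp H)) :
    Ra (((k + 2) ^ 2 * Fintype.card (Reg H) - (n ^ 2 - 2 * n * (k + 2) ^ 2)) * z +
        Fintype.card A * (2 * n * (2 * e + 4 * n ^ 2 + 3 * n + 4 * n * (k + 2)) + 3 * n ^ 2))
      (range w) (range fun r => C 1 (w r)) := by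
  have r0 : Rk (k + 2) (1 : Matrix H H Z) := hk ▸ rk_one
  let x := fun i j => w (.inl (.inl (i, j)))
  let y := fun i j => w (.inl (.inr (i, j)))
  let a := fun j e => w (.inr (.inl (j, e)))
  let b := fun j e => w (.inr (.inr (j, e)))
  let x1 := fun i j => C ((1 + pj i) ⊗ₖ pj j) (x i j)
  let y1 := fun i j => C (1 ⊗ₖ pj j) (C (pj i ⊗ₖ pj j) (y i j) + x i j)
  let a1 := fun j e => C (1 ⊗ₖ pj j) (a j e)
  let a2 := fun s : Tr H × Hp H => C (1 ⊗ₖ (1 + pj s.1)) (a1 s.1 s.2)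
  let u := fun s : Tr H × Tr H => C (pj s.1 ⊗ₖ pj s.2) (y1 s.1 s.2)
  let x2 := fun s : Tr H × Tr H => x1 s.1 s.2 - u s
  let x3 := fun s : Tr H × Tr H => C ((1 + pj s.1) ⊗ₖ (1 + pj s.2)) (x2 s)
  let y3 := fun s : Tr H × Tr H => C ((1 + pj s.1) ⊗ₖ (1 + pj s.2)) (y1 s.1 s.2)
  let b1 := fun s : Tr H × Hp H => C ((1 + pj s.1) ⊗ₖ 1) (b s.1 s.2)
  let x4 := fun i j => C (pj i ⊗ₖ (1 + pj j)) (x3 (i, j))
  let x5 := fun s : Tr H × Tr H => ∑ _i : Unit, (-1 : ℂ) • x4 s.1 s.2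
  have e0 : ∀ i j, x2 (i, j) = -C (1 ⊗ₖ pj j) (y i j) := fun i j => by
    simp only [x2, x1, u, y1, map_add, hF.add, add_kronecker]
    rw [add_left_comm, madd_self, add_zero, add_comm (1 ⊗ₖ pj j)]; abel
  have e1 : ∀ j e, C 1 (a j e) = a2 (j, e) := fun j e => by
    simp only [a2, a1, hF.add, kronecker_add, add_assoc, madd_self, add_zero, one_kronecker_one]
  have e2 : ∀ i j, C 1 (y i j) = x5 (i, j) := fun i j => by
    simp only [x5, x4, x3, e0, map_neg, hF.add, kronecker_add, add_kronecker, one_kronecker_one,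
      Finset.univ_unique, sum_singleton, neg_smul, one_smul, neg_neg]
    congr 2
    ext s t; simp only [Matrix.add_apply]; grind
  have e3 : ∀ i j, C 1 (x i j) =
      C (pj i ⊗ₖ 1) (C (pj i ⊗ₖ pj j) (y3 (i, j)) + x3 (i, j)) := fun i j => by
    simp only [y3, x3, y1, e0, map_neg, map_add, hF.add, kronecker_add, add_kronecker,
      one_kronecker_one]
    rw [add_right_comm, ← sub_eq_add_neg, eq_comm]
    convert zero_add _
    · rw [sub_eq_zero]
      congr 2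
      ext s t; simp only [Matrix.add_apply]; grind
    · ext s t; simp only [Matrix.add_apply]; grind
  have e4 : ∀ i e, C 1 (b i e) = C (pj i ⊗ₖ 1) (b1 (i, e)) := fun i e => by
    simp only [b1, hF.add, add_kronecker, one_kronecker_one]
    rw [add_left_comm, madd_self, add_zero]
  have m1 : ∀ i j, x1 i j ∈ ⋃ j, range (x1 · j) ∪ range (y1 · j) ∪ range (a1 j) := fun i j =>
    mem_iUnion.2 ⟨j, .inl (.inl ⟨i, rfl⟩)⟩
  have m2 : ∀ i j, y1 i j ∈ ⋃ j, range (x1 · j) ∪ range (y1 · j) ∪ range (a1 j) := fun i j =>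
    mem_iUnion.2 ⟨j, .inl (.inr ⟨i, rfl⟩)⟩
  refine ((Ra.iUnion fun j => stage (hF.left j) hk (x · j) (y · j) (a j) (fun _ => mem_range_self _)
      (fun _ => mem_range_self _) (fun _ => mem_range_self _) hn he).trans <|
    (Ra.fam (f := a2) fun s => hF.move (r0.kron (rk_p1 hk _))
      (.inr (mem_iUnion.2 ⟨s.1, .inr ⟨_, rfl⟩⟩))).trans <|
    (Ra.fam (f := u) fun s => hF.move ((rk_vmv _ _).kron (rk_vmv _ _))
      (.inl <| .inr (m2 _ _))).trans <|
    (Ra.fam (f := x2) fun s => .sub' (.inl <| .inl <| .inr (m1 _ _)) (.inr ⟨_, rfl⟩)).trans <|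
    (Ra.fam (f := x3) fun s => hF.move ((rk_p1 hk _).kron (rk_p1 hk _)) (.inr ⟨_, rfl⟩)).trans <|
    (Ra.fam (f := y3) fun s => hF.move ((rk_p1 hk _).kron (rk_p1 hk _))
      (.inl <| .inl <| .inl <| .inl <| .inr (m2 _ _))).trans <|
    (Ra.fam (f := b1) fun s => hF.move ((rk_p1 hk _).kron r0)
      (.inl <| .inl <| .inl <| .inl <| .inl <| .inl ⟨_, rfl⟩)).trans <|
    (Ra.iUnion fun i => stage (hF.right i) hk (fun j => x3 (i, j)) (fun j => y3 (i, j))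
      (fun e => b1 (i, e)) (fun _ => .inl <| .inl <| .inr ⟨_, rfl⟩)
      (fun _ => .inl <| .inr ⟨_, rfl⟩) (fun _ => .inr ⟨_, rfl⟩) hn he).trans <|
    (Ra.fam (f := x5) fun s => .sum _ fun _ =>
      .inr (mem_iUnion.2 ⟨s.1, .inl (.inl ⟨s.2, rfl⟩)⟩)).trans <| Ra.sub ?_).le (le_of_eq ?_)
  · rintro _ ⟨((⟨i, j⟩ | ⟨i, j⟩) | (⟨i, j⟩ | ⟨i, j⟩)), rfl⟩
    · exact .inl <| .inr (mem_iUnion.2 ⟨i, .inl (.inr ⟨j, (e3 i j).symm⟩)⟩)
    · exact .inr ⟨_, (e2 i j).symm⟩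
    · exact .inl <| .inl <| .inl <| .inl <| .inl <| .inl <| .inl <| .inr ⟨_, (e1 i j).symm⟩
    · exact .inl <| .inr (mem_iUnion.2 ⟨i, .inr ⟨j, (e4 i j).symm⟩⟩)
  · simp only [Fintype.card_sum, Fintype.card_prod, Fintype.card_unit]
    push_cast
    rw [← hn, ← he]; ring

end Vale.Agent.P344
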