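import Vale.Agent.P344.Conv

/-!
The recursion: tensor powers cost `k ^ (1 - δ)` per entry.
-/

namespace Vale.Agent.P344

open Set Finset Matrix

variable {V : Type} [AddCommGroup V] [Module ℂ V]

/-- index type of the frames -/
abbrev HH := Fin 20 × Fin 20

theorem copies : ∃ c0 : ℝ, 0 ≤ c0 ∧ ∀ (V : Type) [AddCommGroup V] [Module ℂ V] (A : Type)
    [Fintype A] (z : ℝ) (C : Matrix HH HH Z → Module.End ℂ (A → V)), Fr z C →
    ∀ (Q : Type) [Fintype Q], 4 ^ 16 ≤ Fintype.card Q → ∀ w : Q → A → V,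
      Ra (Fintype.card Q * ((400 - 65 / 10 ^ 6) * z + Fintype.card A * c0)) (range w)
        (range fun q => C 1 (w q)) := by
  have hn : (1140 : ℝ) = Fintype.card (Tr (Fin 20)) := by
    rw [Fintype.card_finset_len]; norm_num [Nat.choose]
  have hn' : Fintype.card (Tr (Fin 20)) = 1140 := by exact_mod_cast hn.symm
  have he : Fintype.card (Hp (Fin 20)) ≤ 1140 * 1140 := by
    rw [Fintype.card_sigma]
    refine (sum_le_card_nsmul _ _ 1140 fun j _ => hn' ▸ Fintype.card_subtype_le _).trans ?_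
    rw [card_univ, hn', smul_eq_mul]
  obtain ⟨r, hr⟩ : ∃ r, r = Fintype.card (Reg (Fin 20)) := ⟨_, rfl⟩
  have hr' := hr
  simp only [Fintype.card_sum, Fintype.card_prod, hn'] at hr'
  obtain ⟨e, he'⟩ : ∃ e : ℝ, e = Fintype.card (Hp (Fin 20)) := ⟨_, rfl⟩
  have e0 : 0 ≤ e := he' ▸ Nat.cast_nonneg _
  refine ⟨2 * 1140 * (2 * e + 4 * 1140 ^ 2 + 3 * 1140 + 4 * 1140 * ((18 : ℕ) + 2)) + 3 * 1140 ^ 2,
    by positivity, fun V _ _ A _ z C hF Q _ hQ w => ?_⟩
  have z0 := hF.nn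
  obtain ⟨q, hq⟩ : ∃ q, q = Fintype.card Q := ⟨_, rfl⟩
  have h1 := Nat.div_add_mod q r
  have h2 := Nat.mod_lt q (show 0 < r by omega)
  have h3 : 1 ≤ q / r := Nat.div_pos (by omega) (by omega)
  generalize q / r = t at *
  generalize q % r = s at *
  let ε : Fin t × Reg (Fin 20) ⊕ Fin s ≃ Q := Fintype.equivOfCardEq (by
    rw [Fintype.card_sum, Fintype.card_prod, ← hr, ← hq, ← h1, mul_comm]; simp)
  refine ((Ra.iUnion fun i => (network hF (k := 18) (by simp) (fun j => w (ε (.inl (i, j)))) hn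
    he').mono (by rintro _ ⟨j, rfl⟩; exact ⟨_, rfl⟩) subset_union_right).trans <|
    (Ra.fam (f := fun i => C 1 (w (ε (.inr i)))) fun i => hF.move rk_one
      (.inl ⟨_, rfl⟩)).trans <| Ra.sub ?_).le ?_
  · rintro _ ⟨j, rfl⟩
    obtain ⟨(⟨i, j⟩ | i), rfl⟩ := ε.surjective j
    · exact .inl (.inr (mem_iUnion.2 ⟨i, j, rfl⟩))
    · exact .inr ⟨i, rfl⟩
  · rw [← hr, ← hq]
    simp only [Fintype.card_fin, Fintype.card_prod]
    have h4 : (q : ℝ) ≤ t * (2 * 2965687200) := by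
      have h7 : r ≤ r * t := Nat.le_mul_of_pos_right _ h3
      have h8 : r * t ≤ 2965687200 * t := Nat.mul_le_mul_right _ (by omega)
      exact_mod_cast (show q ≤ t * (2 * 2965687200) by omega)
    have h5 : (t : ℝ) ≤ q := by
      have h7 : t ≤ r * t := Nat.le_mul_of_pos_left _ (by omega)
      exact_mod_cast (show t ≤ q by omega)
    have h6 : (r : ℝ) * t + s = q := by exact_mod_cast h1
    clear hr hr' he he' hn hn' hq hQ ε
    have h9 : 0 ≤ Fintype.card A * (2 * 1140 * (2 * e + 4 * 1140 ^ 2 + 3 * 1140 +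
      4 * 1140 * (((18 : ℕ) : ℝ) + 2)) + 3 * 1140 ^ 2) := by positivity
    generalize Fintype.card A * (2 * 1140 * (2 * e + 4 * 1140 ^ 2 + 3 * 1140 +
      4 * 1140 * (((18 : ℕ) : ℝ) + 2)) + 3 * 1140 ^ 2) = c0 at *
    have h10 := mul_le_mul_of_nonneg_right h5 h9
    have h11 := mul_le_mul_of_nonneg_right h4 z0
    have h12 : 0 ≤ t * z := by positivity
    have h13 := congrArg (· * z) h6
    push_cast
    linarith

theorem step : ∃ c0 : ℝ, ∀ (V : Type) [AddCommGroup V] [Module ℂ V] (k j : ℕ) (c : ℝ), 0 ≤ c →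
    16 ≤ j → Single V k c → Single V (400 * k + j) ((400 - 65 / 10 ^ 6) * c + c0 + 8 * j) := by
  classical
  obtain ⟨c0, -, hc⟩ := copies
  refine ⟨c0, fun V _ _ k j c c1 hj hS K A _ _ _ _ σ τ hK hi x => ?_⟩
  let ε : (HH × Fin k) ⊕ Fin j ≃ K := Fintype.equivOfCardEq (by simp [hK])
  let φ := Φ (fun s => σ (ε (.inl s))) fun s => τ (ε (.inl s))
  have hφ : Function.Injective φ := fun f f' hf => by
    have e : ∀ f, φ f = Φ σ τ fun l => Sum.elim f 0 (ε.symm l) := fun f => by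
      simp [φ, Φ, ← ε.sum_comp]
    rw [e, e] at hf
    funext s
    simpa using congrFun (hi hf) (ε (.inl s))
  have h1 := AddSubgroup.card_eq_card_quotient_mul_card_addSubgroup φ.range
  rw [← Nat.card_congr (AddMonoidHom.ofInjective hφ).toEquiv] at h1
  simp only [Nat.card_eq_fintype_card] at h1
  have h2 := Fintype.card_le_of_injective _ hi
  have hQ : 4 ^ 16 ≤ Fintype.card (A ⧸ φ.range) := by
    refine (Nat.pow_le_pow_right (by norm_num) hj).trans (Nat.le_of_mul_le_mul_right ?_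
      (Fintype.card_pos (α := HH × Fin k → Z × Z)))
    rw [← h1]
    refine le_of_eq_of_le ?_ h2
    simp [hK, pow_add, mul_comm]
  let s0 : HH × Fin k → HH × Fin k → Z × Z := fun l => Pi.single l (1, 0)
  let t0 : HH × Fin k → HH × Fin k → Z × Z := fun l => Pi.single l (0, 1)
  have h3 : ∀ f, Φ s0 t0 f = f := fun f => by
    funext l
    simp [Φ, s0, t0, Pi.single_apply, Finset.sum_apply, sum_add_distrib]
  have h4 := hc V _ _ _ (fr_fr (σ := s0) (τ := t0) (fun f f' h => by rwa [h3, h3] at h) c1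
    (by simpa using hS)) _ hQ fun q b => x (q.out + φ b)
  have h5 : wf σ τ = wf (fun s => σ (ε (.inr s))) (fun s => τ (ε (.inr s))) *
      wf (fun s => σ (ε (.inl s))) fun s => τ (ε (.inl s)) := by
    rw [wf, ← ε.prod_comp, Fintype.prod_sum_type, mul_comm]; rfl
  rw [h5, map_mul, Module.End.mul_apply]
  refine (Ra.trans (Rc.mono h4 ?_ ?_) ((naive _ _ _).mono subset_union_right
    subset_union_right)).le (le_of_eq ?_)
  · rintro _ ⟨_, ⟨q, rfl⟩, b, rfl⟩
    exact .inr ⟨x, rfl, _, rfl⟩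
  · rw [flat_singleton]
    rintro _ ⟨a, rfl⟩
    obtain ⟨b, hb⟩ : -(QuotientAddGroup.mk a : A ⧸ φ.range).out + a ∈ φ.range :=
      QuotientAddGroup.eq.1 (QuotientAddGroup.out_eq' _)
    refine .inr ⟨_, ⟨QuotientAddGroup.mk a, rfl⟩, b, ?_⟩
    simp only [fr_one, act_wf, h3, map_add, hb, ← add_assoc, add_neg_cancel, zero_add]
    rfl
  · rw [h1]; push_cast; simp; ring

theorem single_bound : ∃ C : ℝ, 0 ≤ C ∧ ∀ (V : Type) [AddCommGroup V] [Module ℂ V] (k : ℕ),
    Single V k (C * k ^ (1 - 2 / 10 ^ 8 : ℝ)) := by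
  obtain ⟨c0, hc⟩ := step
  have h1 : (400 - 65 / 10 ^ 6 : ℝ) < 400 ^ (1 - 2 / 10 ^ 8 : ℝ) := by
    rw [sub_eq_add_neg 1, Real.rpow_add (by norm_num), Real.rpow_one,
      Real.rpow_def_of_pos (by norm_num)]
    have h2 := Real.add_one_le_exp (Real.log 400 * -(2 / 10 ^ 8))
    have h3 : Real.log 400 ≤ 9 * Real.log 2 := by
      rw [← Nat.cast_ofNat (n := 9), ← Real.log_pow]
      exact Real.log_le_log (by norm_num) (by norm_num)
    have := Real.log_two_lt_d9
    linarith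
  generalize hγ : (1 - 2 / 10 ^ 8 : ℝ) = γ at *
  have γ0 : 0 ≤ γ := by rw [← hγ]; norm_num
  generalize hθ : (400 - 65 / 10 ^ 6 : ℝ) = θ at *
  have θ0 : 0 ≤ θ := by rw [← hθ]; norm_num
  obtain ⟨C, C0, C1⟩ : ∃ C : ℝ, 8 * 416 ≤ C ∧ c0 + 8 * 416 ≤ C * (400 ^ γ - θ) := by
    refine ⟨max (8 * 416) ((c0 + 8 * 416) / (400 ^ γ - θ)), le_max_left _ _, ?_⟩
    rw [← div_le_iff₀ (by linarith)]; exact le_max_right _ _
  have C2 : 0 ≤ C := by linarith
  refine ⟨C, C2, fun V _ _ k => ?_⟩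
  induction k using Nat.strong_induction_on with
  | _ k ih =>
  by_cases hk : k < 416
  · intro K A _ _ _ _ σ τ hK _ x
    refine (naive σ τ x).le (mul_le_mul_of_nonneg_right ?_ (by positivity))
    rw [hK]
    rcases k.eq_zero_or_pos with rfl | k0
    · simp; positivity
    · have h2 : (1 : ℝ) ≤ k ^ γ := Real.one_le_rpow (by exact_mod_cast k0) γ0
      have h3 : (k : ℝ) ≤ 416 := by exact_mod_cast hk.le
      nlinarith
  · obtain ⟨m, j, rfl, hj, hj', hm⟩ : ∃ m j, k = 400 * m + j ∧ 16 ≤ j ∧ j ≤ 416 ∧ 1 ≤ m :=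
      ⟨(k - 16) / 400, k - 400 * ((k - 16) / 400), by omega, by omega, by omega, by omega⟩
    intro K A _ _ _ _ σ τ hK hi x
    refine (hc V m j _ (by positivity) hj (ih m (by omega)) K A σ τ hK hi x).le
      (mul_le_mul_of_nonneg_right ?_ (by positivity))
    have h2 : (1 : ℝ) ≤ m ^ γ := Real.one_le_rpow (by exact_mod_cast hm) γ0
    have h3 : (j : ℝ) ≤ 416 := by exact_mod_cast hj'
    have h4 : (400 : ℝ) ^ γ * m ^ γ ≤ ((400 * m + j : ℕ) : ℝ) ^ γ := by
      rw [← Real.mul_rpow (by norm_num) (by positivity)]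
      exact Real.rpow_le_rpow (by positivity) (by push_cast; linarith [(Nat.cast_nonneg j : (0 : ℝ) ≤ j)]) γ0
    have h5 := mul_le_mul_of_nonneg_left h4 C2
    have h6 := mul_le_mul_of_nonneg_left h2 (mul_nonneg C2 (sub_nonneg.2 h1.le))
    linarith

end Vale.Agent.P344
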