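import Vale.Agent.P344.Tensor

/-!
Fast Fourier transform in place, and Toeplitz shears with borrowed workspace.
-/

namespace Vale.Agent.P344

open Set Finset Matrix

variable {I J : Type} [Fintype I] [DecidableEq I] [Fintype J] [DecidableEq J]

theorem Dep.cv {a b : ℕ} {M M' : Matrix I I ℂ} (h : Dep a M) (hab : a ≤ b) (e : M' = M) :
    Dep b M' := e ▸ h.le hab

theorem exists_eo {e o m : ℕ} (h : e + o = m) (h1 : o ≤ e) (h2 : e ≤ o + 1) :
    ∃ ε : Fin e ⊕ Fin o ≃ Fin m, (∀ a, (ε (.inl a)).val = 2 * a) ∧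
      ∀ b, (ε (.inr b)).val = 2 * b + 1 :=
  ⟨Equiv.ofBijective (Sum.elim (fun a => ⟨2 * a, by omega⟩) fun b => ⟨2 * b + 1, by omega⟩)
    ((Fintype.bijective_iff_injective_and_card _).2 ⟨by
      rintro (a | a) (b | b) <;> simp [Fin.ext_iff] <;> omega, by simp [h]⟩),
    fun _ => rfl, fun _ => rfl⟩

theorem pm_lower {I J : Type} {N : Matrix J I ℂ} (h : ∀ i j j', N i j ≠ 0 → N i j' ≠ 0 → j = j')
    (h' : ∀ i i' j, N i j ≠ 0 → N i' j ≠ 0 → i = i') :
    PM (fromBlocks (0 : Matrix I I ℂ) 0 N (0 : Matrix J J ℂ)) := by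
  constructor
  · rintro (i | i) (j | j) (k | k) <;> simp
    exact h _ _ _
  · rintro (i | i) (j | j) (k | k) <;> simp
    exact h' _ _ _
  · rintro (i | i) (j | j) (k | k) <;> simp

theorem pm_upper {I J : Type} {N : Matrix I J ℂ} (h : ∀ i j j', N i j ≠ 0 → N i j' ≠ 0 → j = j')
    (h' : ∀ i i' j, N i j ≠ 0 → N i' j ≠ 0 → i = i') :
    PM (fromBlocks (0 : Matrix I I ℂ) N 0 (0 : Matrix J J ℂ)) := by
  simpa [fromBlocks_transpose] using (pm_lower (N := Nᵀ) (fun _ _ _ => h' _ _ _)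
    fun _ _ _ => h _ _ _).transpose

/-- Fourier matrix -/
def ft (m : ℕ) (ω : ℂ) : Matrix (Fin m) (Fin m) ℂ := of fun j k => ω ^ (j.val * k.val)

theorem dep_fft (e : ℕ) {ω : ℂ} (h : IsPrimitiveRoot ω (2 ^ e)) : Dep (4 * e) (ft (2 ^ e) ω) := by
  induction e generalizing ω with
  | zero => ext ⟨i, hi⟩ ⟨j, hj⟩; simp at hi hj; simp [ft, hi, hj, one_apply]
  | succ e ih =>
    have h1 := ih (h.pow (by positivity) (pow_succ' 2 e))
    have h2 := (h.pow (by positivity) (pow_succ 2 e)).eq_neg_one_of_two_right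
    have h0 : ω ≠ 0 := h.ne_zero (by positivity)
    obtain ⟨ε, e1, e2⟩ := exists_eo (e := 2 ^ e) (o := 2 ^ e) (m := 2 ^ (e + 1)) (by ring) le_rfl
      (by omega)
    let δ : Fin (2 ^ e) ⊕ Fin (2 ^ e) ≃ Fin (2 ^ (e + 1)) :=
      finSumFinEquiv.trans (finCongr (by ring))
    have h3 : ∀ i j j' : Fin (2 ^ e), (1 : Matrix _ _ ℂ) i j ≠ 0 → (1 : Matrix _ _ ℂ) i j' ≠ 0 →
      j = j' := by simp [one_apply]
    have h4 : ∀ i i' j : Fin (2 ^ e), (1 : Matrix _ _ ℂ) i j ≠ 0 → (1 : Matrix _ _ ℂ) i' j ≠ 0 →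
      i = i' := by simp +contextual [one_apply]
    have := (((pm_lower h3 h4).gen.dep.mul (Gen.dep ⟨_, _, mon_one.sum (mon_diagonal
      (μ := fun _ => -2) (by simp)), pm_upper h3 h4, rfl⟩)).mul (mon_one.sum (mon_diagonal
      (μ := fun k : Fin (2 ^ e) => ω ^ k.val) (by simp [h0]))).gen.dep).mul (h1.sum h1)
    refine (this.submatrix' δ.symm ε.symm).cv (by omega) ?_
    ext i j
    obtain ⟨i, rfl⟩ := δ.surjective i
    obtain ⟨j, rfl⟩ := ε.surjective j
    simp only [← fromBlocks_one, fromBlocks_add, fromBlocks_multiply, submatrix_apply,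
      Equiv.symm_apply_apply]
    rcases i with i | i <;> rcases j with j | j <;>
      simp [ft, δ, e1, e2, add_mul, pow_add, pow_mul, h2] <;> ring

theorem sum_root {m : ℕ} {ω : ℂ} (h : IsPrimitiveRoot ω m) (hm : 0 < m) (a t : ℕ) :
    ∑ u : Fin m, (ω ^ u.val) ^ a * (ω ^ u.val)⁻¹ ^ t = if a ≡ t [MOD m] then (m : ℂ) else 0 := by
  have h0 : ω ≠ 0 := h.ne_zero hm.ne'
  have h1 : ∀ u : ℕ, (ω ^ u) ^ a * (ω ^ u)⁻¹ ^ t = (ω ^ a / ω ^ t) ^ u := fun u => by
    rw [div_pow, inv_pow, ← pow_mul, ← pow_mul, ← pow_mul, ← pow_mul, mul_comm a, mul_comm t]; rfl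
  simp only [h1]
  rw [Fin.sum_univ_eq_sum_range (fun u => (ω ^ a / ω ^ t) ^ u)]
  have h2 : ω ^ a / ω ^ t = 1 ↔ a ≡ t [MOD m] := by
    rw [div_eq_one_iff_eq (pow_ne_zero _ h0), h.eq_orderOf]
    exact (h.isOfFinOrder hm.ne').pow_eq_pow_iff_modEq
  split_ifs with h3
  · simp [h2.2 h3]
  · rw [geom_sum_eq (mt h2.1 h3), div_pow, ← pow_mul, ← pow_mul, mul_comm a, mul_comm t, pow_mul,
      pow_mul, h.pow_eq_one]; simp

theorem conv {U : Type} [Fintype U] [Nonempty U] {z : U → ℂ} {N : ℕ} (h : ∀ a < N, ∀ t < N,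
    ∑ u, z u ^ a * (z u)⁻¹ ^ t = if a = t then (Fintype.card U : ℂ) else 0) (c : ℕ → ℂ) {a b : ℕ}
    (ha : a + b < N) : ∑ u, z u ^ a * ((∑ t ∈ range N, c t * (z u)⁻¹ ^ t) / Fintype.card U) *
      z u ^ b = c (a + b) := by
  have : ∀ u, z u ^ a * ((∑ t ∈ range N, c t * (z u)⁻¹ ^ t) / Fintype.card U) * z u ^ b =
      ∑ t ∈ range N, c t / Fintype.card U * (z u ^ (a + b) * (z u)⁻¹ ^ t) := fun u => by
    rw [sum_div, mul_sum, sum_mul]; exact sum_congr rfl fun _ _ => by ring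
  simp only [this]
  rw [sum_comm, sum_congr rfl fun t ht => by rw [← mul_sum, h _ ha t (Finset.mem_range.1 ht)]]
  simp [ha]

theorem dep_comm {a : ℕ} {R : Matrix J I ℂ} {P : Matrix I J ℂ} {W : Matrix I I ℂ} (hW : Dep a W)
    (hR : PM (fromBlocks (0 : Matrix J J ℂ) R 0 (0 : Matrix I I ℂ)))
    (hP : PM (fromBlocks (0 : Matrix J J ℂ) 0 P (0 : Matrix I I ℂ))) (h : P * R = 0) :
    Dep (6 * a + 4) (1 + fromBlocks (R * W * P) 0 0 (0 : Matrix I I ℂ)) := by
  obtain ⟨W', h1, h2⟩ := hW.inv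
  have h3 := mul_eq_one_comm.1 h2
  have h4 := (dep_one (I := J) _).sum hW
  have h5 := (dep_one (I := J) _).sum h1
  refine ((((h5.mul hR.gen.dep).mul h4).mul hP.gen.dep).mul
    (((h5.mul hR.neg.gen.dep).mul h4).mul hP.neg.gen.dep)).cv (by omega) ?_
  simp [← fromBlocks_one, fromBlocks_add, fromBlocks_multiply, fromBlocks_neg, h3, Matrix.add_mul,
    Matrix.mul_add, ← Matrix.mul_assoc, h, Matrix.mul_assoc _ P R]

theorem shear_add {R : Matrix J I ℂ} {P : Matrix I J ℂ} (h : P * R = 0) (A B : Matrix I I ℂ) :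
    (1 + fromBlocks (R * A * P) 0 0 (0 : Matrix I I ℂ)) * (1 + fromBlocks (R * B * P) 0 0 0) =
      1 + fromBlocks (R * (A + B) * P) 0 0 0 := by
  simp [← fromBlocks_one, fromBlocks_add, fromBlocks_multiply, Matrix.add_mul,
    Matrix.mul_add, ← Matrix.mul_assoc, h, Matrix.mul_assoc _ P R, add_assoc]

theorem dep_block {t : ℕ} {X Y : I → Prop} [DecidablePred X] [DecidablePred Y] {p : I → ℕ}
    (hX : ∀ i j, X i → X j → p i = p j → i = j) (hY : ∀ i j, Y i → Y j → p i = p j → i = j)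
    (hXY : ∀ i, X i → ¬ Y i) (hp : ∀ i, X i ∨ Y i → p i < 2 ^ t)
    (hI : t = 0 ∨ 4 * 2 ^ t ≤ Fintype.card I) (c : ℕ → ℂ) :
    Dep (96 * t + 116) (1 + of fun i j => if Y i ∧ X j then c (p i + p j) else 0) := by
  classical
  rcases hI with rfl | hI
  · refine (PM.gen ⟨fun i j k a b => ?_, fun i j k a b => ?_, fun i j k a => ?_⟩).dep.le (by omega)
    all_goals simp only [of_apply, ne_eq, ite_eq_right_iff, not_forall] at *
    · exact hX _ _ a.1.2 b.1.2 (by have := hp _ (.inl a.1.2); have := hp _ (.inl b.1.2); omega)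
    · exact hY _ _ a.1.1 b.1.1 (by have := hp _ (.inr a.1.1); have := hp _ (.inr b.1.1); omega)
    · exact fun b => absurd b.1 (hXY _ a.1.2)
  have k1 : ∀ (X : I → Prop) [DecidablePred X], (∀ i j, X i → X j → p i = p j → i = j) →
      (∀ i, X i → p i < 2 ^ t) → (univ.filter X).card ≤ 2 ^ t := fun X _ h1 h2 => by
    simpa using card_le_card_of_injOn (s := univ.filter X) (t := range (2 ^ t)) p
      (fun i hi => by simpa using h2 i (by simpa using hi))
      fun i hi j hj => h1 i j (by simpa using hi) (by simpa using hj)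
  obtain ⟨w⟩ : Nonempty (Fin (2 ^ (t + 1)) ↪ {i // ¬ (X i ∨ Y i)}) := by
    refine Function.Embedding.nonempty_of_card_le ?_
    have := k1 X hX fun i h => hp i (.inl h)
    have := k1 Y hY fun i h => hp i (.inr h)
    have := card_union_le (univ.filter X) (univ.filter Y)
    rw [Fintype.card_subtype_compl, Fintype.card_subtype, filter_or, Fintype.card_fin]
    omega
  have hw : Function.Injective fun k => (w k).1 := Subtype.val_injective.comp w.injective
  let ε : {i // i ∉ Set.range fun k => (w k).1} ⊕ Fin (2 ^ (t + 1)) ≃ I :=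
    (Equiv.sumComm _ _).trans (((Equiv.ofInjective _ hw).sumCongr (Equiv.refl _)).trans
      (Equiv.sumCompl _))
  have hω := Complex.isPrimitiveRoot_exp (2 ^ (t + 1)) (by positivity)
  generalize Complex.exp _ = ω at hω
  let R := of fun (i : {i // i ∉ Set.range fun k => (w k).1}) (k : Fin (2 ^ (t + 1))) =>
    if Y i ∧ k = p i then (1 : ℂ) else 0
  let P := of fun (k : Fin (2 ^ (t + 1))) (i : {i // i ∉ Set.range fun k => (w k).1}) =>
    if X i ∧ k = p i then (1 : ℂ) else 0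
  have k2 : ∀ μ : Fin (2 ^ (t + 1)) → ℂ, (∀ k, μ k ≠ 0) → Dep (48 * t + 58)
      (1 + fromBlocks (R * (ft _ ω * diagonal μ * ft _ ω) * P) 0 0 (0 : Matrix _ _ ℂ)) :=
    fun μ hμ => (dep_comm (((dep_fft _ hω).mul (mon_diagonal hμ).gen.dep).mul (dep_fft _ hω))
      (pm_upper (by simp +contextual [R, Fin.ext_iff]) (by
        simp only [R, of_apply, ne_eq, ite_eq_right_iff, not_forall]
        exact fun i j k a b => Subtype.ext (hY _ _ a.1.1 b.1.1 (a.1.2.symm.trans b.1.2))))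
      (pm_lower (by
        simp only [P, of_apply, ne_eq, ite_eq_right_iff, not_forall]
        exact fun i j k a b => Subtype.ext (hX _ _ a.1.1 b.1.1 (a.1.2.symm.trans b.1.2)))
        (by simp +contextual [P, Fin.ext_iff])) (by
        ext i j
        rw [mul_apply]
        refine sum_eq_zero fun k _ => ?_
        by_cases h : X k
        · simp [R, hXY _ h]
        · simp [P, h])).le (by omega)
  have k3 : P * R = 0 := by
    ext i j
    rw [mul_apply]
    refine sum_eq_zero fun k _ => ?_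
    by_cases h : X k
    · simp [R, hXY _ h]
    · simp [P, h]
  let μ := fun u : Fin (2 ^ (t + 1)) => (∑ s ∈ range (2 ^ (t + 1)), c s * (ω ^ u.val)⁻¹ ^ s) /
    Fintype.card (Fin (2 ^ (t + 1)))
  have := ((k2 (fun u => if μ u = 1 then 2 else 1) (fun u => by split_ifs <;> simp)).mul
    (k2 (fun u => μ u - if μ u = 1 then 2 else 1) fun u => by
      split_ifs with h
      · rw [h]; norm_num
      · exact sub_ne_zero.2 h)).submatrix ε.symm
  refine this.cv (by omega) ?_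
  rw [shear_add k3, ← Matrix.add_mul, ← Matrix.mul_add, diagonal_add, submatrix_add, Pi.add_apply,
    Pi.add_apply, submatrix_one_equiv]
  congr 1
  ext i j
  obtain ⟨i, rfl⟩ := ε.surjective i
  obtain ⟨j, rfl⟩ := ε.surjective j
  have k5 : ∀ k, ¬ X (ε (.inr k)) ∧ ¬ Y (ε (.inr k)) := fun k => not_or.1 (w k).2
  rcases i with i | i <;> rcases j with j | j <;>
    simp only [submatrix_apply, Equiv.symm_apply_apply, of_apply, k5, and_false, false_and,
      if_false, fromBlocks_apply₁₁, fromBlocks_apply₁₂, fromBlocks_apply₂₁, fromBlocks_apply₂₂,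
      Matrix.zero_apply, add_sub_cancel]
  change (if Y i ∧ X j then c (p i + p j) else 0) = _
  split_ifs with h
  · have a1 := hp _ (.inr h.1)
    have a2 := hp _ (.inl h.2)
    rw [mul_apply, sum_eq_single ⟨p j, by omega⟩ (by simp +contextual [P, Fin.ext_iff]) (by simp),
      mul_apply, sum_eq_single ⟨p i, by omega⟩ (by simp +contextual [R, Fin.ext_iff]) (by simp),
      ← conv (z := fun u : Fin (2 ^ (t + 1)) => ω ^ u.val) (N := 2 ^ (t + 1)) (fun a ha s hs => by
        rw [sum_root hω (by positivity)]; simp [Nat.ModEq, Nat.mod_eq_of_lt, ha, hs]) c (by omega), mul_apply]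
    simp [R, P, h, ft, μ, ← pow_mul, mul_comm]
  · rw [mul_apply]
    refine (sum_eq_zero fun k _ => ?_).symm
    by_cases h' : X j
    · rw [mul_apply, sum_eq_zero fun l _ => by simp [R, show ¬ Y i from fun e => h ⟨e, h'⟩],
        zero_mul]
    · simp [P, h']

end Vale.Agent.P344
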