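import Vale.Agent.P344.Gadget

/-!
One coding stage, and the complete network.
-/

namespace Vale.Agent.P344

open Set Finset Matrix
open scoped Kronecker

variable {H : Type} [Fintype H] [DecidableEq H]
variable {V : Type} [AddCommGroup V] [Module ℂ V] {A : Type} [Fintype A]

/-- helper registers -/
abbrev Hp (H : Type) [DecidableEq H] := Σ j : Tr H, Ev j

theorem stage {z : ℝ} {C : Matrix H H Z → Module.End ℂ (A → V)} (hF : Fr z C) {k : ℕ}
    (hk : Fintype.card H = k + 2) (x y : Tr H → A → V) (a : Hp H → A → V) {X : Set (A → V)}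
    (hx : ∀ i, x i ∈ X) (hy : ∀ i, y i ∈ X) (ha : ∀ e, a e ∈ X) {n e : ℝ}
    (hn : n = Fintype.card (Tr H)) (he : e = Fintype.card (Hp H)) :
    Ra ((2 * n * (k + 1) + e * (k + 2) + (k + 2) ^ 2) * z +
        Fintype.card A * (2 * e + 4 * n ^ 2 + 3 * n + 4 * n * (k + 2))) X
      (range (fun i => C (1 + pj i) (x i)) ∪ range (fun i => C 1 (C (pj i) (y i) + x i)) ∪
        range fun e => C 1 (a e)) := by
  have hE : ∀ j : Tr H, (Fintype.card A * (2 * Fintype.card (Ev j)) : ℝ) ≤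
      Fintype.card A * (2 * n) := fun j => by
    rw [hn]; gcongr; exact Fintype.card_subtype_le _
  let ε : ∀ j : Tr H, Ev j → ℂ := fun j i => (1 - (i.1.1 ∩ j.1).card) / 2
  let s0 := fun e : Hp H => a e + x e.2.1
  let s1 := fun e : Hp H => C (pj e.1) (s0 e)
  let y0 := fun j => ∑ i, ε j i • s1 ⟨j, i⟩
  let y1 := fun j => y j + y0 j
  let s2 := fun e : Hp H => C (1 + pj e.2.1 + pj e.1) (s1 e)
  let x1 := fun i => C (1 + pj i) (x i)
  let a1 := fun e : Hp H => s2 e - x1 e.2.1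
  let a2 := fun e : Hp H => C (pj e.2.1) (a1 e)
  let y2 := fun j => C (1 + pj j) (y1 j)
  let z0 := fun c : H => ∑ i, ((if c ∈ i.1 then 1 / 2 else 0) - 1 / 6 : ℂ) • x i
  let z1 := fun c => C 1 (z0 c)
  let u0 := fun j => ∑ i, ε j i • a2 ⟨j, i⟩
  let u1 := fun j : Tr H => ∑ c, (if c ∈ j.1 then 1 else 0 : ℂ) • z1 c
  let y3 := fun j => y2 j - u0 j
  let y4 := fun j => y3 j + u1 j
  have e1 : ∀ e, a2 e = C 1 (a e) := fun e => by
    simp only [a2, a1, s2, s1, s0, x1, hF.add, add_assoc, madd_self, add_zero, map_add,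
      add_sub_cancel_right]
    rw [add_left_comm, madd_self, add_zero]
  have e2 : ∀ j, y4 j = C 1 (C (pj j) (y j) + x j) := fun j => by
    rw [← key x j]
    simp only [y4, y3, y2, y1, y0, u0, u1, z1, z0, e1, s1, s0, map_add, map_sum, map_smul,
      hF.add, add_assoc, madd_self, add_zero, smul_add, sum_add_distrib, ε]
    abel
  refine ((Ra.fam (f := s0) fun e => .add (ha e) (hx _)).trans <|
    (Ra.fam (f := s1) fun e => hF.move (rk_vmv _ _) (.inr ⟨_, rfl⟩)).trans <|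
    (Ra.fam (f := y0) fun j => (Ra.sum _ fun i => (.inr ⟨_, rfl⟩)).le (hE j)).trans <|
    (Ra.fam (f := y1) fun j => .add (.inl <| .inl <| .inl <| hy _) (.inr ⟨_, rfl⟩)).trans <|
    (Ra.fam (f := s2) fun e => hF.move (rk_p2 hk e.2) (.inl <| .inl <| .inr ⟨_, rfl⟩)).trans <|
    (Ra.fam (f := x1) fun i => hF.move (rk_p1 hk i) (.inl <| .inl <| .inl <| .inl <| .inl <| hx _)).trans <|
    (Ra.fam (f := a1) fun e => .sub' (.inl <| .inr ⟨_, rfl⟩) (.inr ⟨_, rfl⟩)).trans <|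
    (Ra.fam (f := a2) fun e => hF.move (rk_vmv _ _) (.inr ⟨_, rfl⟩)).trans <|
    (Ra.fam (f := y2) fun j => hF.move (rk_p1 hk j)
      (.inl <| .inl <| .inl <| .inl <| .inr ⟨_, rfl⟩)).trans <|
    (Ra.fam (f := z0) fun c => .sum _ fun i =>
      (.inl <| .inl <| .inl <| .inl <| .inl <| .inl <| .inl <| .inl <| .inl <| hx _)).trans <|
    (Ra.fam (f := z1) fun c => hF.move rk_one (.inr ⟨_, rfl⟩)).trans <|
    (Ra.fam (f := u0) fun j => (Ra.sum _ fun i => (.inl <| .inl <| .inl <| .inr ⟨_, rfl⟩)).le (hE j)).trans <|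
    (Ra.fam (f := u1) fun j => .sum _ fun i => (.inl <| .inr ⟨_, rfl⟩)).trans <|
    (Ra.fam (f := y3) fun j => .sub' (.inl <| .inl <| .inl <| .inl <| .inr ⟨_, rfl⟩)
      (.inl <| .inr ⟨_, rfl⟩)).trans <|
    (Ra.fam (f := y4) fun j => .add (.inr ⟨_, rfl⟩) (.inl <| .inr ⟨_, rfl⟩)).trans <|
    Ra.sub ?_).le (le_of_eq ?_)
  · simp only [← e1, ← e2]
    rintro _ ((⟨i, rfl⟩ | ⟨i, rfl⟩) | ⟨i, rfl⟩)
    · exact (.inl <| .inl <| .inl <| .inl <| .inl <| .inl <| .inl <| .inl <| .inl <| .inr ⟨_, rfl⟩)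
    · exact (.inr ⟨_, rfl⟩)
    · exact (.inl <| .inl <| .inl <| .inl <| .inl <| .inl <| .inl <| .inr ⟨_, rfl⟩)
  · rw [← hn, ← he, hk]; push_cast; ring

end Vale.Agent.P344
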