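import Vale.Agent.P344.Dep

/-!
Tensor products of shallow circuits are cheap.
-/

namespace Vale.Agent.P344

open Set Finset Matrix

variable {P : Type} [Fintype P] [DecidableEq P]

/-- block diagonal matrices -/
def blk {P : Type} [DecidableEq P] (B : P → Matrix Z Z ℂ) : Matrix (P × Z) (P × Z) ℂ :=
  of fun u v => if v.1 = u.1 then B u.1 u.2 v.2 else 0

theorem blk_mul (B B' : P → Matrix Z Z ℂ) : blk B * blk B' = blk fun p => B p * B' p := by
  ext u v
  simp only [blk, mul_apply, of_apply, Fintype.sum_prod_type, ite_mul, zero_mul]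
  rw [sum_eq_single u.1 (fun p _ hp => by simp [hp]) (by simp)]
  split_ifs <;> simp_all

omit [Fintype P] in
theorem mon_blk {μ : P → Z → ℂ} (h : ∀ p a, μ p a ≠ 0) : Mon (blk fun p => diagonal (μ p)) := by
  convert mon_diagonal (μ := fun u : P × Z => μ u.1 u.2) fun u => h _ _
  ext u v
  simp only [blk, of_apply, diagonal_apply, Prod.ext_iff, ite_and, eq_comm]

/-- two by two diagonal -/
def dg (a b : ℂ) (x : Z) : ℂ := if x = 0 then a else b

theorem dg_ne {a b : ℂ} (ha : a ≠ 0) (hb : b ≠ 0) (x : Z) : dg a b x ≠ 0 := by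
  unfold dg; split_ifs <;> assumption

theorem two_by_two (c : ℂ) : ∃ μ : Fin 4 → Z → ℂ, (∀ i a, μ i a ≠ 0) ∧
    (of fun a b : Z => (if a = b then 1 else 0) + if a = 1 ∧ b = 0 then c else 0) =
      diagonal (μ 0) * hz * diagonal (μ 1) * hz * diagonal (μ 2) * hz * diagonal (μ 3) := by
  by_cases hc : c = 0
  · refine ⟨![dg ((1 - Complex.I) / 4) ((1 - Complex.I) / 4), dg 1 Complex.I, dg 1 Complex.I,
      dg 1 Complex.I], fun i => ?_, ?_⟩
    · fin_cases i <;> exact dg_ne (by simp [Complex.ext_iff]) (by simp [Complex.ext_iff])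
    · ext a b
      simp only [mul_apply, sum_Z]
      rcases zcases a with rfl | rfl <;> rcases zcases b with rfl | rfl <;>
        simp [hz, sg, dg, hc, Complex.ext_iff] <;> norm_num
  · refine ⟨![dg 1 (-4 / 5 * c), dg 1 3, dg (1 / 4) (-1 / 2), dg (1 / 2) (-5 / 6 / c)],
      fun i => ?_, ?_⟩
    · fin_cases i <;> exact dg_ne (by simp) (by simp [hc])
    · ext a b
      simp only [mul_apply, sum_Z]
      rcases zcases a with rfl | rfl <;> rcases zcases b with rfl | rfl <;>
        simp [hz, sg, dg] <;> field_simp <;> norm_num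

theorem PM.blocks {N : Matrix (P × Z) (P × Z) ℂ} (h : PM N) :
    ∃ (ε : P × Z ≃ P × Z) (c : P → ℂ), 1 + N = (blk fun p => of fun a b : Z =>
      (if a = b then 1 else 0) + if a = 1 ∧ b = 0 then c p else 0).submatrix ε ε := by
  classical
  let T := {s : (P × Z) × (P × Z) // N s.1 s.2 ≠ 0}
  let f : T × Z → P × Z := fun s => if s.2 = 0 then s.1.1.2 else s.1.1.1
  have hf : Function.Injective f := by
    rintro ⟨⟨⟨i, j⟩, hs⟩, a⟩ ⟨⟨⟨i', j'⟩, hs'⟩, b⟩ e
    rcases zcases a with rfl | rfl <;> rcases zcases b with rfl | rfl <;>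
      simp only [f, if_true, one_ne_zero, if_false] at e <;> subst e
    · obtain rfl := h.col _ _ _ hs hs'; rfl
    · exact absurd (h.nil _ _ _ hs) hs'
    · exact absurd (h.nil _ _ _ hs') hs
    · obtain rfl := h.row _ _ _ hs hs'; rfl
  have h1 := Fintype.card_le_of_injective f hf
  obtain ⟨j⟩ : Nonempty (T ↪ P) := Function.Embedding.nonempty_of_card_le (by
    simp only [Fintype.card_prod, ZMod.card] at h1; omega)
  obtain ⟨ε, hε⟩ := Equiv.Perm.exists_extending_pair f (Prod.map j id) hf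
    (j.injective.prodMap Function.injective_id)
  refine ⟨ε, Function.extend j (fun s => N s.1.1 s.1.2) 0, ?_⟩
  ext u v
  have key : ∀ s : T, ε s.1.1 = (j s, 1) ∧ ε s.1.2 = (j s, 0) := fun s =>
    ⟨by simpa [f] using hε (s, 1), by simpa [f] using hε (s, 0)⟩
  have e1 : (1 : Matrix (P × Z) (P × Z) ℂ) u v =
      if (ε v).1 = (ε u).1 then if (ε u).2 = (ε v).2 then 1 else 0 else 0 := by
    rw [one_apply, ← ite_and]
    simp only [eq_comm (a := (ε v).1), ← Prod.ext_iff, ε.injective.eq_iff]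
  simp only [Matrix.add_apply, submatrix_apply, blk, of_apply, e1]
  by_cases e : N u v = 0
  · rw [e]
    by_cases e2 : (ε v).1 = (ε u).1 ∧ (ε u).2 = 1 ∧ (ε v).2 = 0 ∧ ∃ s, j s = (ε u).1
    · obtain ⟨a, b, c, s, d⟩ := e2
      obtain rfl : s.1.1 = u := ε.injective ((key s).1.trans (Prod.ext d b.symm))
      obtain rfl : s.1.2 = v := ε.injective ((key s).2.trans (Prod.ext (d.trans a.symm) c.symm))
      exact absurd e s.2
    · by_cases a : (ε v).1 = (ε u).1
      · by_cases b : (ε u).2 = 1 ∧ (ε v).2 = 0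
        · rw [Function.extend_apply' _ _ _ fun d => e2 ⟨a, b.1, b.2, d⟩]; simp [a]
        · simp [a, b]
      · simp [a]
  · have := key ⟨(u, v), e⟩
    simp only at this
    simp [this.1, this.2, j.injective.extend_apply]

theorem Gen.had {M : Matrix (P × Z) (P × Z) ℂ} (h : Gen M) :
    ∃ m : Fin 4 → Matrix (P × Z) (P × Z) ℂ, (∀ i, Mon (m i)) ∧ M = m 0 * blk (fun _ => hz) * m 1 *
      blk (fun _ => hz) * m 2 * blk (fun _ => hz) * m 3 := by
  obtain ⟨M, N, h1, h2, rfl⟩ := h
  obtain ⟨ε, c, h3⟩ := h2.blocks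
  choose μ h4 h5 using two_by_two
  refine ⟨![M * (blk fun p => diagonal (μ (c p) 0)).submatrix ε (Equiv.refl _),
    blk fun p => diagonal (μ (c p) 1), blk fun p => diagonal (μ (c p) 2),
    (blk fun p => diagonal (μ (c p) 3)).submatrix (Equiv.refl _) ε], fun i => ?_, ?_⟩
  · fin_cases i
    exacts [h1.mul ((mon_blk fun _ => h4 _ _).submatrix _ _), mon_blk fun _ => h4 _ _,
      mon_blk fun _ => h4 _ _, (mon_blk fun _ => h4 _ _).submatrix _ _]
  · simp only [h3, h5, ← blk_mul, mul_assoc, cons_val_zero, cons_val_one, Matrix.cons_val]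
    rfl

variable {V : Type} [AddCommGroup V] [Module ℂ V] {K : Type} [Fintype K] [DecidableEq K]

theorem co_mon {I : K → Type} [∀ s, Fintype (I s)] [∀ s, DecidableEq (I s)]
    {M : ∀ s, Matrix (I s) (I s) ℂ} (h : ∀ s, Mon (M s)) :
    Co V (Fintype.card (∀ s, I s)) (piK M) := by
  choose σ μ h1 h2 using h
  convert co_sparse (V := V) (fun (u : ∀ s, I s) s => σ s (u s)) fun u => ∏ s, μ s (u s)
  ext u v
  simp [piK, h2, prod_ite_zero, funext_iff]

theorem co_blk {P : K → Type} [∀ s, Fintype (P s)] [∀ s, DecidableEq (P s)] {c : ℝ}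
    (h : Co V c (piK fun _ : K => hz)) :
    Co V (Fintype.card (∀ s, P s) * c) (piK fun s => blk fun _ : P s => hz) := fun x => by
  refine (Rc.iUnion fun p : ∀ s, P s => (h fun u => x fun s => (p s, u s)).mono ?_
    subset_union_right).mono (subset_insert _ _) ?_
  · rintro _ ⟨u, rfl⟩; exact .inr ⟨_, rfl⟩
  · rintro _ ⟨u, rfl⟩
    refine .inr (mem_iUnion.2 ⟨fun s => (u s).1, fun s => (u s).2, ?_⟩)
    refine Fintype.sum_of_injective (fun (v : K → Z) s => ((u s).1, v s)) (fun v w e => ?_) _ _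
      (fun v hv => ?_) fun v => by simp [piK, blk]
    · funext s; exact congrArg Prod.snd (congrFun e s)
    · obtain ⟨s, hs⟩ : ∃ s, (v s).1 ≠ (u s).1 := by
        by_contra! e
        exact hv ⟨fun s => (v s).2, funext fun s => Prod.ext (e s).symm rfl⟩
      rw [piK, of_apply, prod_eq_zero (mem_univ s) (by simp [blk, hs]), zero_smul]

theorem co_dep {P : K → Type} [∀ s, Fintype (P s)] [∀ s, DecidableEq (P s)] {c : ℝ}
    (h : Co V (c * 2 ^ Fintype.card K) (piK fun _ : K => hz)) (D : ℕ)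
    {M : ∀ s, Matrix (P s × Z) (P s × Z) ℂ} (hM : ∀ s, Dep D (M s)) :
    Co V (D * (3 * c + 4) * Fintype.card (∀ s, P s × Z)) (piK M) := by
  induction D generalizing M with
  | zero =>
    convert co_one (V := V) (J := ∀ s, P s × Z)
    · simp
    · ext u v
      simp [piK, show ∀ s, M s = 1 from hM, one_apply, prod_ite_zero, funext_iff]
  | succ D ih =>
    choose M' N h1 h2 h3 using hM
    choose m h4 h5 using fun s => (h2 s).had
    have h6 := co_blk (P := P) h
    have h7 := fun i => co_mon (V := V) fun s => h4 s i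
    rw [funext h3, funext h5]
    simp only [piK_mul]
    refine ((ih h1).mul (((((((h7 0).mul h6).mul (h7 1)).mul h6).mul (h7 2)).mul h6).mul
      (h7 3))).le (le_of_eq ?_)
    simp [prod_mul_distrib]; ring

end Vale.Agent.P344
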