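import Vale.Agent.P344.Shear

/-!
Triangular Toeplitz matrices and Fourier matrices of every size have shallow in-place circuits.
-/

namespace Vale.Agent.P344

open Set Finset Matrix PowerSeries

variable {I : Type} [Fintype I] [DecidableEq I]

theorem dep_shear {t : ℕ} {X Y : I → Prop} [DecidablePred X] [DecidablePred Y] {p : I → ℕ}
    (hX : ∀ i j, X i → X j → p i = p j → i = j) (hY : ∀ i j, Y i → Y j → p i = p j → i = j)
    (hXY : ∀ i, X i → ¬ Y i) (hp : ∀ i, p i < 4 * 2 ^ t)
    (hI : t = 0 ∨ 4 * 2 ^ t ≤ Fintype.card I) (c : ℤ → ℂ) :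
    Dep (16 * (96 * t + 116)) (1 + of fun i j => if Y i ∧ X j then c (p i - p j) else 0) := by
  have s0 : 0 < 2 ^ t := by positivity
  have h1 := fun i => Nat.div_add_mod (p i) (2 ^ t)
  have h2 := fun i => Nat.mod_lt (p i) s0
  refine (Dep.shear (univ : Finset (Fin 4 × Fin 4)) (a := 96 * t + 116)
    (N := fun s => of fun i j => if (Y i ∧ p i / 2 ^ t = s.1) ∧ (X j ∧ p j / 2 ^ t = s.2) then
      c (p i - p j) else 0) (fun s => ?_) fun s s' => ?_).cv (by simp) ?_
  · refine (dep_block (X := fun j => X j ∧ p j / 2 ^ t = s.2) (Y := fun j => Y j ∧ p j / 2 ^ t = s.1)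
      (p := fun i => if Y i then p i % 2 ^ t else 2 ^ t - 1 - p i % 2 ^ t)
      (fun i j a b e => hX _ _ a.1 b.1 ?_) (fun i j a b e => hY _ _ a.1 b.1 ?_)
      (fun i a b => hXY _ a.1 b.1) (fun i _ => ?_) hI
      fun u => c (u + (2 ^ t * s.1 : ℕ) - (2 ^ t * s.2 : ℕ) - (2 ^ t : ℕ) + 1)).cv le_rfl ?_
    · simp only [hXY _ a.1, hXY _ b.1, if_false] at e
      have := h1 i; have := h1 j; have := h2 i; have := h2 j
      rw [a.2] at *; rw [b.2] at *; omega
    · simp only [a.1, b.1, if_true] at e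
      rw [← h1 i, ← h1 j, a.2, b.2, e]
    · have := h2 i
      split_ifs <;> omega
    · congr 1
      ext i j
      simp only [of_apply]
      split_ifs with h a b
      · exact absurd b (hXY _ h.2.1)
      · have := h1 i; have := h1 j; have := h2 i; have := h2 j
        rw [h.1.2] at *; rw [h.2.2] at *
        congr 1; omega
      · exact absurd h.1.1 a
      · exact absurd h.1.1 a
      · rfl
  · ext i j
    rw [mul_apply]
    refine sum_eq_zero fun k _ => ?_
    by_cases h : X k
    · simp [hXY _ h]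
    · simp [h]
  · congr 1
    ext i j
    rw [Matrix.sum_apply, sum_eq_single (⟨p i / 2 ^ t, Nat.div_lt_of_lt_mul (mul_comm 4 _ ▸ hp i)⟩,
      ⟨p j / 2 ^ t, Nat.div_lt_of_lt_mul (mul_comm 4 _ ▸ hp j)⟩) ?_ (by simp)]
    · simp
    · intro s _ hs
      exact if_neg fun h => hs (Prod.ext (Fin.ext h.1.2.symm) (Fin.ext h.2.2.symm))

/-- coefficients indexed by integers -/
noncomputable def tz (f : ℂ⟦X⟧) (t : ℤ) : ℂ := if 0 ≤ t then coeff t.toNat f else 0

/-- triangular Toeplitz matrix -/
noncomputable def tp (m m' : ℕ) (f : ℂ⟦X⟧) : Matrix (Fin m) (Fin m') ℂ :=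
  of fun i j => tz f (i.val - j.val)

theorem tp_apply {m m' : ℕ} (f : ℂ⟦X⟧) (i : Fin m) (j : Fin m') :
    tp m m' f i j = if j.val ≤ i.val then coeff (i.val - j.val) f else 0 := by
  simp [tp, tz]

theorem tp_add (m m' : ℕ) (f g : ℂ⟦X⟧) : tp m m' f + tp m m' g = tp m m' (f + g) := by
  ext i j; simp only [Matrix.add_apply, tp_apply]; split_ifs <;> simp

theorem tp_mul {a b c : ℕ} (h : a ≤ b) (f g : ℂ⟦X⟧) : tp a b f * tp b c g = tp a c (f * g) := by
  ext i j
  simp only [mul_apply, tp_apply]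
  rw [Fin.sum_univ_eq_sum_range (fun k => (if k ≤ i.val then coeff (i.val - k) f else 0) *
    if j.val ≤ k then coeff (k - j.val) g else 0), mul_comm f, coeff_mul,
    Finset.Nat.sum_antidiagonal_eq_sum_range_succ_mk]
  have := i.2
  split_ifs with h1
  · symm
    refine sum_of_injOn (fun k => k + j.val) (fun _ _ _ _ e => by simpa using e)
      (fun k hk => by simp at hk ⊢; omega) (fun k _ hk => ?_) fun k hk => ?_
    · by_cases a : k ≤ i.val ∧ j.val ≤ k
      · exact absurd ⟨k - j.val, by simp; omega, by simp; omega⟩ hk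
      · rcases not_and_or.1 a with a | a <;> simp [a]
    · simp only [Finset.mem_range] at hk
      rw [if_pos (by omega), if_pos (by omega), mul_comm, Nat.add_sub_cancel,
        show i.val - (k + j.val) = i.val - j.val - k by omega]
  · refine sum_eq_zero fun k _ => ?_
    by_cases a : k ≤ i.val
    · rw [if_neg (show ¬ j.val ≤ k by omega), mul_zero]
    · simp [a]

theorem dep_tp (T L : ℕ) (hL : L ≤ T) : ∀ m ≤ 2 ^ L, ∀ f : ℂ⟦X⟧, coeff 0 f ≠ 0 →
    Dep (1 + L * (32 * (96 * T + 116) )) (tp m m f) := by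
  induction L with
  | zero =>
    intro m hm f hf
    have h1 : Mon (diagonal fun _ : Fin m => coeff 0 f) := mon_diagonal fun _ => hf
    rw [zero_mul]
    refine h1.gen.dep.cv le_rfl ?_
    ext i j
    have : i = j := Fin.ext (by have := i.2; have := j.2; rw [pow_zero] at hm; omega)
    simp [tp_apply, this]
  | succ L ih =>
    intro m hm f hf
    obtain ⟨e, o, h, h1, h2⟩ : ∃ e o, e + o = m ∧ o ≤ e ∧ e ≤ o + 1 :=
      ⟨(m + 1) / 2, m / 2, by omega, by omega, by omega⟩
    obtain ⟨ε, e1, e2⟩ := exists_eo h h1 h2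
    obtain ⟨t, t1, t2, t3⟩ : ∃ t ≤ T, e ≤ 4 * 2 ^ t ∧ (t = 0 ∨ 4 * 2 ^ t ≤ m) := by
      refine ⟨Nat.log 2 (m / 4), (Nat.log_lt_of_lt_pow' (by omega) ?_).le.trans hL, ?_, ?_⟩
      · have := Nat.two_pow_pos L; omega
      · have := Nat.lt_pow_succ_log_self one_lt_two (m / 4); omega
      · by_cases h : m / 4 = 0
        · simp [h]
        · have := Nat.pow_log_le_self 2 h; omega
    let fe : ℂ⟦X⟧ := mk fun n => coeff (2 * n) f
    let fo : ℂ⟦X⟧ := mk fun n => coeff (2 * n + 1) f
    have f0 : constantCoeff fe ≠ 0 := by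
      rwa [← coeff_zero_eq_constantCoeff_apply, coeff_mk]
    have f1 := PowerSeries.mul_inv_cancel fe f0
    generalize fe⁻¹ = fi at f1
    have k1 : ∀ (g : ℂ⟦X⟧) (b : Bool), Dep (16 * (96 * T + 116)) (1 + of fun i j : Fin e ⊕ Fin o =>
        if i.isLeft = b ∧ j.isRight = b then
          tz g (Sum.elim Fin.val Fin.val i - Sum.elim Fin.val Fin.val j) else 0) := fun g b =>
      (dep_shear (t := t) (p := Sum.elim Fin.val Fin.val)
        (by rintro (i | i) (j | j) <;> cases b <;> simp [Fin.ext_iff])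
        (by rintro (i | i) (j | j) <;> cases b <;> simp [Fin.ext_iff])
        (by rintro (i | i) <;> cases b <;> simp) (by rintro (i | i) <;> simp <;> omega)
        (by simpa [h] using t3) _).le (by gcongr)
    have k2 : Dep _ (1 + fromBlocks 0 0 (tp o e (fo * fi)) 0) := (k1 (fo * fi) false).cv le_rfl (by
      congr 1; ext (i | i) (j | j) <;> simp [tp])
    have k3 : Dep _ (1 + fromBlocks 0 (tp e o (X * (fo * fi))) 0 0) :=
      (k1 (X * (fo * fi)) true).cv le_rfl (by congr 1; ext (i | i) (j | j) <;> simp [tp])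
    refine (((k2.mul ((ih (by omega) e (by omega) fe (by simpa using f0)).sum
      (ih (by omega) o (by omega) (fe * (1 - X * (fo * fi) ^ 2)) (by simpa using f0)))).mul
      k3).submatrix ε.symm).cv (le_of_eq (by ring)) ?_
    simp only [← fromBlocks_one, fromBlocks_add, fromBlocks_multiply, add_zero, zero_add,
      Matrix.mul_one, Matrix.one_mul, Matrix.mul_zero, Matrix.zero_mul, tp_mul le_rfl, tp_mul h1,
      tp_add]
    rw [show fe * (X * (fo * fi)) = X * fo by linear_combination X * fo * f1,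
      show fo * fi * fe = fo by linear_combination fo * f1,
      show fo * (X * (fo * fi)) + fe * (1 - X * (fo * fi) ^ 2) = fe by
        linear_combination -X * fo ^ 2 * fi * f1]
    ext i j
    obtain ⟨i, rfl⟩ := ε.surjective i
    obtain ⟨j, rfl⟩ := ε.surjective j
    rcases i with i | i <;> rcases j with j | j <;>
      simp only [submatrix_apply, Equiv.symm_apply_apply, tp_apply, e1, e2, fromBlocks_apply₁₁,
        fromBlocks_apply₁₂, fromBlocks_apply₂₁, fromBlocks_apply₂₂, fe, fo, coeff_mk] <;>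
      split_ifs with a b <;> try (first | rfl | omega | (congr 2; omega))
    · obtain ⟨n, hn⟩ : ∃ n, i.val - j.val = n + 1 := ⟨i.val - j.val - 1, by omega⟩
      rw [hn, coeff_succ_X_mul, coeff_mk]
      congr 2; omega
    · simp [show i.val - j.val = 0 by omega]

/-- products of the numbers `ω ^ s - 1` -/
noncomputable def fac (ω : ℂ) (j : ℕ) : ℂ := ∏ s ∈ range j, (ω ^ (s + 1) - 1)

/-- Gaussian binomial coefficients -/
noncomputable def gb (ω : ℂ) : ℕ → ℕ → ℂ
  | _, 0 => 1
  | 0, _ + 1 => 0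
  | k + 1, l + 1 => gb ω k l + ω ^ (l + 1) * gb ω k (l + 1)

theorem gb_zero (ω : ℂ) : ∀ k l, k < l → gb ω k l = 0
  | 0, _ + 1, _ => rfl
  | k + 1, l + 1, h => by rw [gb, gb_zero ω k l (by omega), gb_zero ω k (l + 1) (by omega)]; simp

theorem gb_fac (ω : ℂ) : ∀ k l r, l + r = k → gb ω k l * fac ω l * fac ω r = fac ω k
  | k, 0, r, h => by simp [gb, fac, ← h]
  | 0, _ + 1, _, h => by omega
  | k + 1, l + 1, 0, h => by
    have := gb_fac ω k l 0 (by omega)
    obtain rfl : l = k := by omega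
    rw [gb, gb_zero ω l (l + 1) (by omega)]
    simp only [fac, prod_range_succ, prod_range_zero] at *
    linear_combination (ω ^ (l + 1) - 1) * this
  | k + 1, l + 1, r + 1, h => by
    have h1 := gb_fac ω k l (r + 1) (by omega)
    have h2 := gb_fac ω k (l + 1) r (by omega)
    obtain rfl : k = l + 1 + r := by omega
    rw [gb]
    simp only [fac, prod_range_succ _ l, prod_range_succ _ r, prod_range_succ _ (l + 1 + r)] at *
    linear_combination (ω ^ (l + 1) - 1) * h1 + ω ^ (l + 1) * (ω ^ (r + 1) - 1) * h2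

theorem pow_eq_gb (ω x : ℂ) (k : ℕ) : ∀ n, k < n →
    x ^ k = ∑ l ∈ range n, gb ω k l * ∏ s ∈ range l, (x - ω ^ s) := by
  induction k with
  | zero =>
    rintro (_ | n) hn
    · omega
    · simp [sum_range_succ', gb]
  | succ k ih =>
    rintro (_ | n) hn
    · omega
    have h1 : x ^ k * x = ∑ l ∈ range n, gb ω k l * ∏ s ∈ range (l + 1), (x - ω ^ s) +
        ∑ l ∈ range (n + 1), ω ^ l * gb ω k l * ∏ s ∈ range l, (x - ω ^ s) := by
      rw [sum_range_succ, gb_zero ω k n (by omega), ih n (by omega), sum_mul, mul_zero, zero_mul,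
        add_zero, ← sum_add_distrib]
      exact sum_congr rfl fun l _ => by rw [prod_range_succ]; ring
    rw [pow_succ, h1, sum_range_succ', sum_range_succ']
    simp [gb, add_mul, sum_add_distrib, add_assoc]

theorem newton (ω : ℂ) (l : ℕ) : ∀ r, (∏ s ∈ range l, (ω ^ (l + r) - ω ^ s)) * fac ω r =
    (∏ s ∈ range l, ω ^ s) * fac ω (l + r) := by
  induction l with
  | zero => simp
  | succ l ih =>
    intro r
    have := ih (r + 1)
    rw [prod_range_succ, prod_range_succ, show l + 1 + r = l + (r + 1) by ring]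
    rw [fac, prod_range_succ, ← fac] at this
    linear_combination ω ^ l * this

theorem dep_ft {T m : ℕ} (hm : m ≤ 2 ^ T) {ω : ℂ} (h : IsPrimitiveRoot ω m) :
    Dep (6 + 3 * T * (32 * (96 * T + 116))) (ft m ω) := by
  have h1 : ∀ j < m, fac ω j ≠ 0 := fun j hj => prod_ne_zero_iff.2 fun s hs =>
    sub_ne_zero.2 (h.pow_ne_one_of_pos_of_lt (by omega) (by simp at hs; omega))
  have h2 := dep_tp T T le_rfl m hm (mk fun n => (fac ω n)⁻¹) (by simp [fac])
  have h3 := (mon_diagonal fun j : Fin m => h1 j j.2).gen.dep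
  refine ((((h3.mul h2).mul (mon_diagonal (μ := fun j : Fin m => (∏ s ∈ range j, ω ^ s) / fac ω j)
    fun j => div_ne_zero (prod_ne_zero_iff.2 fun _ _ => pow_ne_zero _ (h.ne_zero j.pos.ne'))
      (h1 j j.2)).gen.dep).mul h2.transpose).mul h3).cv (le_of_eq (by ring)) ?_
  ext j k
  rw [mul_diagonal, mul_apply, ft, of_apply, pow_mul, pow_eq_gb ω _ k m k.2, sum_mul,
    ← Fin.sum_univ_eq_sum_range (fun l => gb ω k l * ∏ s ∈ range l, (ω ^ j.val - ω ^ s))]
  refine sum_congr rfl fun l _ => ?_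
  simp only [mul_diagonal, diagonal_mul, transpose_apply, tp_apply, coeff_mk]
  split_ifs with a b
  · have e1 := gb_fac ω k l (k - l) (by omega)
    have e2 := newton ω l (j - l)
    rw [Nat.add_sub_cancel' a] at e2
    have := h1 l l.2
    have := h1 (j - l) (by omega)
    have := h1 (k - l) (by omega)
    rw [← e1]
    field_simp
    linear_combination gb ω k l * e2
  · simp [gb_zero ω _ _ (not_le.1 b)]
  all_goals rw [prod_eq_zero (i := j.val) (by simpa using a) (sub_self _)]; simp

end Vale.Agent.P344
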